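import Vale.Agent.P284.H619.PotW

/-!
# P284 (helper366), theorem T3⁺: the limit with its real structure, potentials

`VPotJ`: on the fibre `F = t` the map `u` is `G + J G + c₀` for every local primitive `G` of `Θ`.
-/

open scoped Manifold ContDiff Topology InnerProductSpace ComplexConjugate ENNReal Matrix
open Filter Set MeasureTheory Metric

noncomputable section

set_option linter.unusedSectionVars false

namespace Vale.Agent.P284.H366.J

open Vale.Agent.P272.K Vale.Agent.P284.H894 Vale.Agent.P284.H894.G Vale.Agent.P284.H894.V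
  Vale.Agent.P284.H894.W Vale.Agent.P284.H501 Vale.Agent.P284.H501.Core Vale.Agent.P284.H619
  Vale.Agent.P284.H619.Pot
  Vale.Agent.P284.H402.A Vale.Agent.P284.H551 Vale.Agent.P284.H366

/-- a function with vanishing derivative along the fibre of a submersion is locally constant on it -/
theorem fib_const {n q : ℕ} {W : Type*} [NormedAddCommGroup W] [NormedSpace ℂ W] [CompleteSpace W]
    {f : Cm n → Cm q} {z₀ : Cm n} (hf : AnalyticAt ℂ f z₀)
    (hs : Function.Surjective (fderiv ℂ f z₀)) {D : Cm n → W} (hD : AnalyticAt ℂ D z₀)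
    (hker : ∀ᶠ z in 𝓝 z₀, f z = f z₀ → ∀ v, fderiv ℂ f z v = 0 → fderiv ℂ D z v = 0) :
    ∀ᶠ z in 𝓝 z₀, f z = f z₀ → D z = D z₀ := by
  obtain ⟨s, φ, χ, -, hφ, hφ0, hχ, hχ0, h1, h2, h3⟩ := H625.exists_straight hf hs
  set L : Cm n →L[ℂ] Cm q := fderiv ℂ f z₀ with hL
  have hct : Tendsto χ (𝓝 0) (𝓝 z₀) := by
    have := hχ.continuousAt.tendsto
    rwa [hχ0] at this
  have hgood : ∀ᶠ u in 𝓝 (0 : Cm n), (∀ᶠ u' in 𝓝 u, f (χ u') = f z₀ + L u') ∧ AnalyticAt ℂ χ u ∧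
      AnalyticAt ℂ D (χ u) ∧ AnalyticAt ℂ f (χ u) ∧
      (f (χ u) = f z₀ → ∀ v, fderiv ℂ f (χ u) v = 0 → fderiv ℂ D (χ u) v = 0) := by
    filter_upwards [h3.eventually_nhds, hχ.eventually_analyticAt,
      hct.eventually hD.eventually_analyticAt, hct.eventually hf.eventually_analyticAt,
      hct.eventually hker] with u g1 g2 g3 g4 g5
    exact ⟨g1, g2, g3, g4, g5⟩
  obtain ⟨r, hr, hball⟩ := Metric.eventually_nhds_iff_ball.1 hgood
  have hφt : Tendsto φ (𝓝 z₀) (𝓝 0) := by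
    have := hφ.continuousAt.tendsto
    rwa [hφ0] at this
  filter_upwards [hφt.eventually (ball_mem_nhds (0 : Cm n) hr), h1] with z hz hz1 hfz
  set u := φ z with hu
  have hub : u ∈ ball (0 : Cm n) r := hz
  have hLu : L u = 0 := by
    have := (hball u hub).1.self_of_nhds
    rw [hz1, hfz] at this
    exact (left_eq_add.1 this)
  have hseg : ∀ s ∈ Icc (0 : ℝ) 1, s • u ∈ ball (0 : Cm n) r := by
    intro s hs
    rw [mem_ball_zero_iff] at hub ⊢
    rw [norm_smul, Real.norm_of_nonneg hs.1]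
    calc s * ‖u‖ ≤ 1 * ‖u‖ := by gcongr; exact hs.2
      _ = ‖u‖ := one_mul _
      _ < r := hub
  have hder : ∀ s ∈ Icc (0 : ℝ) 1, HasDerivAt (fun s : ℝ => D (χ (s • u))) 0 s := by
    intro s hs
    obtain ⟨g1, g2, g3, g4, g5⟩ := hball _ (hseg s hs)
    have hLs : L (s • u) = 0 := by
      rw [ContinuousLinearMap.map_smul_of_tower, hLu, smul_zero]
    have e1 : HasDerivAt (fun s : ℝ => s • u) u s := by
      simpa using (hasDerivAt_id s).smul_const u
    have e2 : HasFDerivAt (fun x => D (χ x)) ((fderiv ℂ D (χ (s • u))).comp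
        (fderiv ℂ χ (s • u))) (s • u) :=
      g3.differentiableAt.hasFDerivAt.comp _ g2.differentiableAt.hasFDerivAt
    have e3 : HasFDerivAt (fun x => f (χ x)) ((fderiv ℂ f (χ (s • u))).comp
        (fderiv ℂ χ (s • u))) (s • u) :=
      g4.differentiableAt.hasFDerivAt.comp _ g2.differentiableAt.hasFDerivAt
    have e4 : HasFDerivAt (fun x => f (χ x)) L (s • u) := by
      have : HasFDerivAt (fun x : Cm n => f z₀ + L x) L (s • u) := L.hasFDerivAt.const_add _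
      exact this.congr_of_eventuallyEq g1
    have e5 : fderiv ℂ f (χ (s • u)) (fderiv ℂ χ (s • u) u) = 0 := by
      have := DFunLike.congr_fun (e3.unique e4) u
      rw [ContinuousLinearMap.comp_apply] at this
      rw [this, hLu]
    have e6 := g5 (by rw [g1.self_of_nhds, hLs, add_zero]) _ e5
    have e7 := (e2.restrictScalars ℝ).comp_hasDerivAt s e1
    have e8 : ((fderiv ℂ D (χ (s • u))).comp (fderiv ℂ χ (s • u))).restrictScalars ℝ u = 0 := e6
    rw [e8] at e7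
    exact e7
  have hc := constant_of_has_deriv_right_zero (f := fun s : ℝ => D (χ (s • u))) (a := 0) (b := 1)
    (fun s hs => (hder s hs).continuousAt.continuousWithinAt)
    (fun s hs => (hder s ⟨hs.1, hs.2.le⟩).hasDerivWithinAt) 1 ⟨zero_le_one, le_rfl⟩
  simp only [one_smul, zero_smul] at hc
  rw [hz1, hχ0] at hc
  exact hc

section
variable {n q : ℕ} {X E : Type} [TopologicalSpace X] [ChartedSpace (Cm n) X]
  [TopologicalSpace E]

/-- potentials with respect to the conjugation `J` -/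
def VPotJ (n : ℕ) {q : ℕ} {X E W : Type} [TopologicalSpace X] [ChartedSpace (Cm n) X]
    [TopologicalSpace E] [NormedAddCommGroup W] [InnerProductSpace ℂ W]
    (p : E → X) (F : E → Cm q) (t : Cm q) (J : W →SL[starRingEnd ℂ] W)
    (Θ : E → Chart n X → (Cm n →L[ℂ] W)) (u : E → W) : Prop :=
  ∀ (y : E) (e : Chart n X) (G : Cm n → W), F y = t → At e (p y) → AnalyticAt ℂ G (e (p y)) →
    (∀ᶠ y' in 𝓝 y, F y' = t → ∀ ξ ∈ VS p F y' e, fderiv ℂ G (e (p y')) ξ = Θ y' e ξ) →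
    ∃ c₀, ∀ᶠ y' in 𝓝 y, F y' = t → u y' = G (e (p y')) + J (G (e (p y'))) + c₀

end

section
variable {n q : ℕ} {X : Type} [TopologicalSpace X] [ChartedSpace (Cm n) X]
  [IsManifold 𝓘(ℂ, Cm n) ω X]
  {E Γ : Type} [TopologicalSpace E] [Group Γ] [MulAction Γ E] {p : E → X} {F : E → Cm q}
  {W : Type} [NormedAddCommGroup W] [InnerProductSpace ℂ W] [CompleteSpace W]

/-- two primitives differ by a constant along the fibre -/
theorem prim_const (hp : IsCoveringMap p) (hF : HolE n p F) {t : Cm q}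
    {Θ : E → Chart n X → (Cm n →L[ℂ] W)} {y : E} {e : Chart n X} (hy : F y = t) (he : At e (p y))
    (hr : Reg (n := n) p F y) {G G' : Cm n → W} (hG : AnalyticAt ℂ G (e (p y)))
    (hG' : AnalyticAt ℂ G' (e (p y)))
    (h : ∀ᶠ y' in 𝓝 y, F y' = t → ∀ ξ ∈ VS p F y' e, fderiv ℂ G (e (p y')) ξ = Θ y' e ξ)
    (h' : ∀ᶠ y' in 𝓝 y, F y' = t → ∀ ξ ∈ VS p F y' e, fderiv ℂ G' (e (p y')) ξ = Θ y' e ξ) :
    ∃ c₁ : W, ∀ᶠ y' in 𝓝 y, F y' = t → G' (e (p y')) = G (e (p y')) + c₁ := by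
  obtain ⟨f, hf, hfa⟩ := hF y e he
  have hs := hr e f he hf
  have hft : f (e (p y)) = t := by rw [← hf.self_of_nhds, hy]
  have hk : ∀ᶠ z in 𝓝 (e (p y)), f z = f (e (p y)) → ∀ v, fderiv ℂ f z v = 0 →
      fderiv ℂ (fun z => G' z - G z) z v = 0 := by
    rw [← ev_iff hp he]
    have ha : ∀ᶠ y' in 𝓝 y, AnalyticAt ℂ G (e (p y')) ∧ AnalyticAt ℂ G' (e (p y')) :=
      (ev_iff hp he (Q := fun z => AnalyticAt ℂ G z ∧ AnalyticAt ℂ G' z)).2
        (hG.eventually_analyticAt.and hG'.eventually_analyticAt)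
    filter_upwards [h, h', hf.eventually_nhds, at_ev hp he, ha] with y' g1 g2 g3 g4 g5 g6 v hv
    have hyt : F y' = t := by rw [g3.self_of_nhds, g6, hft]
    have hvv : v ∈ VS p F y' e := by
      rw [mem_VS_iff hp hF g4, dFe_eq hp g4 g3]
      exact hv
    have e1 : HasFDerivAt (fun z => G' z - G z)
        (fderiv ℂ G' (e (p y')) - fderiv ℂ G (e (p y'))) (e (p y')) :=
      g5.2.differentiableAt.hasFDerivAt.sub g5.1.differentiableAt.hasFDerivAt
    rw [e1.fderiv, sub_apply, g1 hyt v hvv, g2 hyt v hvv, sub_self]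
  have hc := fib_const hfa hs (hG'.sub hG) hk
  refine ⟨G' (e (p y)) - G (e (p y)), ?_⟩
  filter_upwards [(ev_iff hp he).2 hc, hf] with y' g1 g2 g3
  have := g1 (by rw [← g2, g3, hft])
  have h3 : G' (e (p y')) - G (e (p y')) = G' (e (p y)) - G (e (p y)) := this
  rw [← h3]
  abel

end

section
variable {n q : ℕ} {X : Type} [TopologicalSpace X] [ChartedSpace (Cm n) X]
  {E Γ : Type} [TopologicalSpace E] [Group Γ] [MulAction Γ E] {p : E → X} {F : E → Cm q}
  {H : ℕ → Type}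
  [∀ k, NormedAddCommGroup (H k)] [∀ k, InnerProductSpace ℂ (H k)] {U : Ultrafilter ℕ}
  {Φ : ∀ k, E → H k} {J : ∀ k, H k →SL[starRingEnd ℂ] H k}
  [IsManifold 𝓘(ℂ, Cm n) ω X]

/-- **The potentials, real form.** Local data (`LocD`) at every point of a connected regular fibre,
with primitives `G` of the relative form of `S`. -/
theorem potEJ [∀ k, CompleteSpace (H k)] (hG : IsGalois Γ p) (hF : HolE n p F) {c : Γ → Cm q}
    (hc : ∀ g y, F (g • y) = F y + c g) {t : Cm q} (hcon : IsConnected (F ⁻¹' {t}))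
    (hreg : ∀ y, F y = t → Reg (n := n) p F y)
    (hJ : ∀ k x, ‖J k x‖ ≤ ‖x‖)
    {ρ : ∀ k, Γ →* (H k ≃ₗᵢ[ℂ] H k)} (hρ : ∀ k g x, ρ k g (J k x) = J k (ρ k g x))
    (hΦ : ∀ k g y, Φ k (g • y) = ρ k g (Φ k y))
    {S : E → Chart n X → Cm n [⋀^Fin (q + 1)]→L[ℂ] UP H U} (hrel : RelE p F S)
    (hform : FormE p S) (hloc : ∀ y, F y = t → ∃ (e : Chart n X) (f : Cm n → Cm q)
      (φ : ∀ k, Cm n → H k) (G : Cm n → UP H U), LocD U p F Φ J y e f φ G ∧
      ∀ᶠ y' in 𝓝 y, IsW (fderiv ℂ f (e (p y'))) (S y' e) (fderiv ℂ G (e (p y')))) :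
    ∃ u : E → UP H U,
      VPotJ n p F t (upMap U J (Jbd hJ)) (ThE p F S) u ∧
      (∀ y e, F y = t → At e (p y) → ∃ G : Cm n → UP H U, AnalyticAt ℂ G (e (p y)) ∧
        ∀ᶠ y' in 𝓝 y, F y' = t → ∀ ξ ∈ VS p F y' e,
          fderiv ℂ G (e (p y')) ξ = ThE p F S y' e ξ) ∧
      ∀ g : Γ, c g = 0 → ∃ b : UP H U, ∀ y, F y = t → u (g • y) = upRep U ρ g (u y) + b := by
  have hp := hG.cov
  obtain ⟨u, hu⟩ := exists_pot (Φ := Φ) (J := J) hp hF hcon hreg hJ (fun y hy => by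
    obtain ⟨e, f, φ, G, h, -⟩ := hloc y hy
    exact ⟨e, f, φ, G, h⟩)
  set JU := upMap U J (Jbd hJ) with hJU
  have key : ∀ y e, F y = t → At e (p y) → ∃ (G : Cm n → UP H U) (c₀ : UP H U),
      AnalyticAt ℂ G (e (p y)) ∧
      (∀ᶠ y' in 𝓝 y, F y' = t → ∀ ξ ∈ VS p F y' e,
        fderiv ℂ G (e (p y')) ξ = ThE p F S y' e ξ) ∧
      ∀ᶠ y' in 𝓝 y, F y' = t → u y' = G (e (p y')) + JU (G (e (p y'))) + c₀ := by
    intro y e hyt he
    obtain ⟨e', f, φ, G, hLD, hW⟩ := hloc y hyt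
    obtain ⟨c₀, hc₀⟩ := hu y hyt _ _ _ _ hLD
    set τ : Cm n → Cm n := fun x => e' (e.symm x) with hτ
    have he' : At e' (p y) := hLD.mem
    have hτz : τ (e (p y)) = e' (p y) := by
      show e' (e.symm (e (p y))) = e' (p y)
      rw [e.left_inv he.2]
    have hτan : AnalyticAt ℂ τ (e (p y)) := (transition he he').analyticAt
    have hGτ : AnalyticAt ℂ (fun x => G (τ x)) (e (p y)) := by
      refine AnalyticAt.comp (g := G) ?_ hτan
      rw [hτz]
      exact hLD.Gan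
    have hev1 : ∀ᶠ y' in 𝓝 y, AnalyticAt ℂ G (e' (p y')) ∧ AnalyticAt ℂ f (e' (p y')) :=
      (ev_iff hp he' (Q := fun z => AnalyticAt ℂ G z ∧ AnalyticAt ℂ f z)).2
        (hLD.Gan.eventually_analyticAt.and hLD.fan.eventually_analyticAt)
    have hev3 : ∀ᶠ y' in 𝓝 y, AnalyticAt ℂ τ (e (p y')) :=
      (ev_iff hp he (Q := fun x => AnalyticAt ℂ τ x)).2 hτan.eventually_analyticAt
    refine ⟨fun x => G (τ x), c₀, hGτ, ?_, ?_⟩
    · filter_upwards [hev1, hev3, at_ev hp he, at_ev hp he', hW, hLD.fev.eventually_nhds] with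
        y' g1 g3 g4 g4' g6 g7 hy't ξ hξ
      have hτz' : τ (e (p y')) = e' (p y') := by
        show e' (e.symm (e (p y'))) = e' (p y')
        rw [e.left_inv g4.2]
      have hd1 : DifferentiableAt ℂ τ (e (p y')) := g3.differentiableAt
      -- the derivative of `G ∘ τ`
      have e1 : fderiv ℂ (fun x => G (τ x)) (e (p y')) ξ =
          fderiv ℂ G (e' (p y')) (fderiv ℂ τ (e (p y')) ξ) := by
        have h3 : HasFDerivAt (fun x => G (τ x)) ((fderiv ℂ G (τ (e (p y')))).comp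
            (fderiv ℂ τ (e (p y')))) (e (p y')) :=
          HasFDerivAt.comp (g := G) (e (p y'))
            (by rw [hτz']; exact g1.1.differentiableAt.hasFDerivAt) hd1.hasFDerivAt
        rw [h3.fderiv, hτz']
        rfl
      rw [e1]
      -- the relative form
      rw [ThE_change hp hF hrel hform g4 g4' (hreg y' hy't) hξ]
      have hrep : H501.Rep p F y' e' f := ⟨g1.2, g7⟩
      have hsj : Function.Surjective (fderiv ℂ f (e' (p y'))) := hreg y' hy't e' f g4' g7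
      have hvert : fderiv ℂ f (e' (p y')) (fderiv ℂ τ (e (p y')) ξ) = 0 := by
        have h1 := (mem_VS_iff hp hF g4).1 hξ
        rw [dFe_change hp hF g4 g4', dFe_eq hp g4' g7] at h1
        exact h1
      exact (ThE_isTh (S := S) hp y' e' f g4' hrep hsj _ g6 _ hvert).symm
    · filter_upwards [at_ev hp he, hc₀] with y' g4 g5 hy't
      have hτz' : τ (e (p y')) = e' (p y') := by
        show e' (e.symm (e (p y'))) = e' (p y')
        rw [e.left_inv g4.2]
      rw [g5 hy't, hτz']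
  refine ⟨u, ?_, ?_, ?_⟩
  · intro y e G₁ hyt he hG₁ hG₁d
    obtain ⟨G, c₀, h1, h2, h3⟩ := key y e hyt he
    obtain ⟨c₁, hc₁⟩ := prim_const hp hF hyt he (hreg y hyt) h1 hG₁ h2 hG₁d
    refine ⟨c₀ - c₁ - JU c₁, ?_⟩
    filter_upwards [h3, hc₁] with y' g1 g2 hy't
    rw [g1 hy't, g2 hy't, map_add]
    abel
  · intro y e hyt he
    obtain ⟨G, c₀, h1, h2, -⟩ := key y e hyt he
    exact ⟨G, h1, h2⟩
  · intro g hg
    have hFg : ∀ y, F (g • y) = F y := fun y => by rw [hc, hg, add_zero]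
    have hpg : ∀ y', p (g • y') = p y' := fun y' => ((hG.orb _ _).2 ⟨g, rfl⟩).symm
    refine equi_pot (n := n) (F := F) (t := t) (J := JU) (A := upRep U ρ g) (g := fun y => g • y) hp
      hcon (fun x => rep_upJ hJ ρ hρ g x) (hG.cont g) hpg hFg fun y hy => ?_
    obtain ⟨e, f, φ, G, hLD, -⟩ := hloc y hy
    have hLD' := hLD.smul hG hρ (hΦ · g) hFg
    obtain ⟨c₀, hc₀⟩ := hu _ hy _ _ _ _ hLD
    obtain ⟨c₁, hc₁⟩ := hu _ ((hFg y).trans hy) _ _ _ _ hLD'
    refine ⟨e, f, G, fun z => upRep U ρ g (G z), c₀, c₁, hLD.mem, hLD.fan, hLD.fev,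
      hreg y hy e f hLD.mem hLD.fev, hLD.Gan, ?_, ?_, hc₀, hc₁⟩
    · have := hLD'.Gan
      rwa [hpg] at this
    · filter_upwards [hLD.Gan.eventually_analyticAt] with z k3 ξ _
      have k4 : HasFDerivAt (fun z => upRep U ρ g (G z))
          ((((upRep U ρ g).toContinuousLinearEquiv : UP H U ≃L[ℂ] UP H U) :
          UP H U →L[ℂ] UP H U).comp (fderiv ℂ G z)) z :=
        ((((upRep U ρ g).toContinuousLinearEquiv : UP H U ≃L[ℂ] UP H U) :
          UP H U →L[ℂ] UP H U)).hasFDerivAt.comp z k3.differentiableAt.hasFDerivAt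
      rw [k4.fderiv]
      rfl

end

/-- potentials of the limit of real maps, real form -/
def PotVJStmt : Prop :=
  ∀ (n : ℕ) (X : Type) [TopologicalSpace X] [T2Space X] [CompactSpace X] [ConnectedSpace X]
    [ChartedSpace (Cm n) X] [IsManifold 𝓘(ℂ, Cm n) ω X]
    (w : Chart n X → Cm n → Matrix (Fin n) (Fin n) ℂ), IsKahler w →
    ∀ (E Γ : Type) [TopologicalSpace E] [ConnectedSpace E] [Group Γ] [MulAction Γ E]
      (p : E → X) (hG : IsGalois Γ p) (C : Coc n Γ) (D : ECoc p C) (K : KM C)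
      (hKw : ∀ a, K.w a = w (D.e a)) (q : ℕ) (F : E → Cm q) (c : Γ → Cm q) (B : ℝ)
      (hF : HolB p w F B) (hc : Eqv F c) (hreg : ∃ y, Reg (n := n) p F y)
      (H : ℕ → Type) [∀ k, NormedAddCommGroup (H k)] [∀ k, InnerProductSpace ℂ (H k)]
      [∀ k, CompleteSpace (H k)] (U : Ultrafilter ℕ) (π : ∀ k, Γ →* (H k ≃ₗᵢ[ℂ] H k))
      (cj : ∀ k, H k →SL[starRingEnd ℂ] H k) (hJ : ∀ k x, ‖cj k x‖ ≤ ‖x‖),
      (∀ k g x, cj k (π k g x) = π k g (cj k x)) →
      ∀ (u : ∀ k, Γ → C.I → Cm n → H k), (∀ k, VMap C (π k) (u k)) →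
      (∀ k γ a z, cj k (u k γ a z) = u k γ a z) →
      VSeq C U π (fun k => vtf (hfF hG D K hKw hF hc hreg) (u k)) → ∀ (Dm : MD C) (t : Cm q),
      IsConnected (F ⁻¹' {t}) → (∀ y, F y = t → Reg (n := n) p F y) →
      ∃ v : E → UP H U,
        VPotJ n p F t (upMap U cj (Jbd hJ)) (ThE p F (SE hG D (LimV Dm U
              fun k => vtf (hfF hG D K hKw hF hc hreg) (u k)))) v ∧
        (∀ y e, F y = t → At e (p y) → ∃ G : Cm n → UP H U, AnalyticAt ℂ G (e (p y)) ∧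
          ∀ᶠ y' in 𝓝 y, F y' = t → ∀ ξ ∈ VS p F y' e, fderiv ℂ G (e (p y')) ξ =
            ThE p F (SE hG D (LimV Dm U
              fun k => vtf (hfF hG D K hKw hF hc hreg) (u k))) y' e ξ) ∧
        ∀ k : Γ, c k = 0 → ∃ b : UP H U, ∀ y, F y = t → v (k • y) = upRep U π k (v y) + b

/-- **Potentials of limits of Hilbert valued maps**, real form -/
theorem potVJ : PotVJStmt := by
  classical
  intro n X _ _ _ _ _ _ w hw E Γ _ _ _ _ p hG C D K hKw q F c B hF hc hreg H _ _ _ U π cj hJ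
    hcjπ u hu hur hV Dm t hcon hregt
  have hp := hG.cov
  have hVΩ : ∀ a, Dm.Q a ⊆ C.Ω a := fun a => (Dm.Q_sub a).trans (V_sub_Ω C a)
  have han : ∀ γ a, ∀ z ∈ C.Ω a, AnalyticAt ℂ (Fc D F γ a) z := fun γ a z hz =>
    Fc_an hG D hF γ hz
  have hsurj : ∀ γ a z, z ∈ Dm.Q a → F (γ • D.σ a z) = t →
      Function.Surjective (fderiv ℂ (Fc D F γ a) z) := fun γ a z hz hzt =>
    (reg_iff hG D hF γ (hVΩ a hz)).1 (hregt _ hzt)
  have hHol : HolE n p F := fun y e he => by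
    obtain ⟨f, hf⟩ := rep_of_holB hG D hF y e he
    exact ⟨f, hf.2, hf.1⟩
  set θ := hfF hG D K hKw hF hc hreg with hθ
  set s := LimV Dm U (fun k => vtf θ (u k)) with hs
  have hcf : H551.CForm C Dm.Q s := cform_limV Dm hV
  have hrel : ∀ γ a, ∀ z ∈ Dm.Q a, Function.Surjective (fderiv ℂ (Fc D F γ a) z) →
      ∀ (ξ : Fin (q + 1) → Cm n) (i j : Fin (q + 1)), i ≠ j →
        fderiv ℂ (Fc D F γ a) z (ξ i) = 0 → fderiv ℂ (Fc D F γ a) z (ξ j) = 0 →
        s γ a z ξ = 0 := by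
    intro γ a z hz hsur ξ i j hij hi hj
    exact LimV_rel Dm θ hV γ a hz (inj_of_surj (thF_apply D hc γ a z) hsur) hij
      ((vert_iff hc γ a z (ξ i)).1 hi) ((vert_iff hc γ a z (ξ j)).1 hj)
  have hrelE : RelE p F (SE hG D s) := relE_of hG.cov hHol
    fun y e f he hf hsur ξ i j hij hi hj =>
      SE_rel hG D hcf (fun y _ he => rep_of_holB hG D hF y _ he) (i := i) (j := j)
        (fun γ a z hz hsur ξ hi hj => hrel γ a z hz hsur ξ i j hij hi hj) he hf hsur hi hj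
  have hform : FormE p (SE hG D s) := SE_form hG D hcf
  -- the maps on the covering
  have hpt : ∀ y : E, ∃ (γ : Γ) (a : C.I) (z : Cm n), z ∈ Dm.Q a ∧ γ • D.σ a z = y := by
    intro y
    obtain ⟨γ, a, -, h2, h3⟩ := D.exists_sheet hG y
    exact ⟨γ, a, _, Dm.W_sub a h2, h3⟩
  choose γs as zs hzs hys using hpt
  set Φ : ∀ k, E → H k := fun k y => u k (γs y) (as y) (zs y) with hΦ
  have hΦe : ∀ γ a z, z ∈ Dm.Q a → ∀ k, Φ k (γ • D.σ a z) = u k γ a z := by
    intro γ a z hz k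
    obtain ⟨hO, hT, hκ⟩ := D.eq_imp hG (hVΩ _ (hzs (γ • D.σ a z))) (hVΩ a hz) (hys _)
    have e := (hu k).compat (γs (γ • D.σ a z)) _ _ _ hO
    rw [hT, ← hκ] at e
    exact e
  have hΦeq : ∀ k g y, Φ k (g • y) = π k g (Φ k y) := by
    intro k g y
    have h1 := hΦe (g * γs y) (as y) (zs y) (hzs y) k
    rw [mul_smul, hys] at h1
    rw [h1, (hu k).equi g (γs y) (as y) (zs y) (hVΩ _ (hzs y))]
  -- the local data
  have hnear : ∀ (γ : Γ) a z, z ∈ Dm.Q a → ∀ᶠ y in 𝓝 (γ • D.σ a z),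
      D.e a (p y) ∈ Dm.Q a ∧ γ • D.σ a (D.e a (p y)) = y ∧ p y ∈ (D.e a).source := by
    intro γ a z hz
    have hzΩ := hVΩ a hz
    have hcπ : ContinuousAt p (γ • D.σ a z) := hG.cov.continuous.continuousAt
    have hpy : p (γ • D.σ a z) = (D.e a).symm z := D.proj' hG γ hzΩ
    have he : ContinuousAt (fun y => D.e a (p y)) (γ • D.σ a z) := by
      refine ContinuousAt.comp ?_ hcπ
      rw [hpy]
      exact (D.e a).continuousAt (D.source hzΩ)
    have hval : D.e a (p (γ • D.σ a z)) = z := D.e_proj hG γ hzΩ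
    have h1 : ∀ᶠ y in 𝓝 (γ • D.σ a z), D.e a (p y) ∈ Dm.Q a := by
      refine he.eventually (p := fun z' => z' ∈ Dm.Q a) ?_
      show ∀ᶠ z' in 𝓝 (D.e a (p (γ • D.σ a z))), z' ∈ Dm.Q a
      rw [hval]
      exact (Dm.Q_open a).mem_nhds hz
    filter_upwards [h1, D.ev hG γ hzΩ] with y g1 g2
    exact ⟨g1, g2.2.2, g2.1⟩
  have hloc : ∀ γ a z, z ∈ Dm.Q a → F (γ • D.σ a z) = t → ∃ G : Cm n → UP H U,
      LocD U p F Φ cj (γ • D.σ a z) (D.e a) (Fc D F γ a) (fun k => u k γ a) G ∧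
      ∀ᶠ z' in 𝓝 z, IsW (fderiv ℂ (Fc D F γ a) z') (s γ a z') (fderiv ℂ G z') := by
    intro γ a z hz hzt
    have hzΩ := hVΩ a hz
    have hez : D.e a (p (γ • D.σ a z)) = z := D.e_proj hG γ hzΩ
    have hQ : ∀ᶠ z' in 𝓝 z, z' ∈ Dm.Q a := (Dm.Q_open a).mem_nhds hz
    obtain ⟨G, hG1, hG2, hG3⟩ := pieceV (s := s γ a) (φ := fun k => u k γ a) (hV.fseq Dm γ a)
      Dm.mol Dm.pos.le le_rfl (z₀ := z) hz (EventuallyEq.refl _ _)
      (by
        filter_upwards [hQ] with z' g1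
        exact LimV_closed Dm hV (fun k => vtf_closed θ (hu k)) γ a g1)
      (han γ a z hzΩ) (hsurj γ a z hz hzt)
      (by
        have hs0 := hsurj γ a z hz hzt
        obtain ⟨I, hI⟩ := dL_ne hs0
        have han₁ : AnalyticAt ℂ (fun z => dL (fderiv ℂ (Fc D F γ a) z)
            (fun i => Pi.single (I i) 1)) z := an_dL (han γ a z hzΩ).fderiv _
        filter_upwards [hQ, han₁.continuousAt.eventually_ne hI] with z' g1 g2 ξ i j hij hi hj
        refine hrel γ a z' g1 ?_ ξ i j hij hi hj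
        by_contra hcon
        exact g2 (dL_not_surj hcon _))
      (by
        filter_upwards [hQ] with z' g1 k w' v' hv'
        exact vtf_snoc θ (hu k) γ a (hVΩ a g1) (fun v i => thF_apply D hc γ a z' v i) w' hv')
    refine ⟨G, ⟨D.at_sheet hG γ hzΩ, by rw [hez]; exact han γ a z hzΩ, Fc_rep hG D F γ hzΩ, ?_, ?_,
      ?_, by rw [hez]; exact hG1, by rw [hez]; exact hG3⟩, hG2⟩
    · filter_upwards [hnear γ a z hz] with y' g1 k
      have := hΦe γ a _ g1.1 k
      rwa [g1.2.1] at this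
    · rw [hez]
      filter_upwards [(Ω_open a).mem_nhds hzΩ] with z' g1 k
      exact ((hu k).smooth γ a z' g1).of_le (by norm_cast)
    · exact Eventually.of_forall fun z' k => hur k γ a z'
  refine potEJ (Φ := Φ) (J := cj) (ρ := π) hG hHol hc hcon hregt hJ
    (fun k g x => (hcjπ k g x).symm) hΦeq hrelE hform fun y hy => ?_
  obtain ⟨G, hLD, hG2⟩ := hloc (γs y) (as y) (zs y) (hzs y) (by rw [hys]; exact hy)
  have hys' := hys y
  have hez : D.e (as y) (p (γs y • D.σ (as y) (zs y))) = zs y :=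
    D.e_proj hG (γs y) (hVΩ _ (hzs y))
  have hn := hnear (γs y) (as y) (zs y) (hzs y)
  rw [hys'] at hLD hez hn
  refine ⟨_, _, _, G, hLD, ?_⟩
  have hev1 : ∀ᶠ y' in 𝓝 y, IsW (fderiv ℂ (Fc D F (γs y) (as y)) (D.e (as y) (p y')))
      (s (γs y) (as y) (D.e (as y) (p y'))) (fderiv ℂ G (D.e (as y) (p y'))) := by
    refine (ev_iff hp hLD.mem (Q := fun z => IsW (fderiv ℂ (Fc D F (γs y) (as y)) z)
      (s (γs y) (as y) z) (fderiv ℂ G z))).2 ?_
    rw [hez]
    exact hG2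
  filter_upwards [hev1, hn] with y' g1 g2
  have h5 := SE_eq hG D hcf (γs y) g2.1 (e := D.e (as y)) (by
    rw [g2.2.1]
    exact ⟨D.mem _, g2.2.2⟩)
  rw [g2.2.1] at h5
  have h6 : fderiv ℂ (fun z => D.e (as y) ((D.e (as y)).symm z)) (D.e (as y) (p y')) =
      ContinuousLinearMap.id ℂ (Cm n) := by
    have h7 : (fun z => D.e (as y) ((D.e (as y)).symm z)) =ᶠ[𝓝 (D.e (as y) (p y'))] id := by
      filter_upwards [(D.e (as y)).open_target.mem_nhds ((D.e (as y)).map_source g2.2.2)] with z hz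
      exact (D.e (as y)).right_inv hz
    rw [h7.fderiv_eq, fderiv_id]
  rw [h5, h6]
  exact g1

end Vale.Agent.P284.H366.J
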