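import Vale.Agent.P284.H366.J.Pot

/-!
# P284 (helper366), theorem T3⁺: the displacements of the potentials, module D1

`u t` is a potential of `Θ` on the fibre `F = t`, for every `t ∉ T`. Locally the difference
`u t y' - u t y` is the real part of an analytic function of `(y, y')` in the fibre product.
-/

open scoped Manifold ContDiff Topology InnerProductSpace ComplexConjugate ENNReal Matrix
open Filter Set MeasureTheory Metric

noncomputable section

set_option linter.unusedSectionVars false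

namespace Vale.Agent.P284.H366.J

open Vale.Agent.P272.K Vale.Agent.P284.H894 Vale.Agent.P284.H894.G Vale.Agent.P284.H894.V
  Vale.Agent.P284.H894.W Vale.Agent.P284.H501 Vale.Agent.P284.H501.Core Vale.Agent.P284.H619
  Vale.Agent.P284.H619.Pot
  Vale.Agent.P284.H402.A Vale.Agent.P284.H551 Vale.Agent.P284.H366

/-! ### Boxes -/

section
variable {n q : ℕ} {X : Type} [TopologicalSpace X] [ChartedSpace (Cm n) X]
  {E : Type} [TopologicalSpace E] {p : E → X} {F : E → Cm q}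

/-- product charts of the covering at a regular point -/
theorem exists_boxE (hp : IsCoveringMap p) {y₀ : E} {e : Chart n X} (he : At e (p y₀))
    {f : Cm n → Cm q} (hfa : AnalyticAt ℂ f (e (p y₀))) (hf : ∀ᶠ y' in 𝓝 y₀, F y' = f (e (p y')))
    (hs : Function.Surjective (fderiv ℂ f (e (p y₀)))) {O : Set E} (hO : O ∈ 𝓝 y₀) :
    ∃ (σ : Cm n → E) (φ : E → Cm n) (L : Cm n →L[ℂ] Cm q), ∃ r > 0,
      ContinuousOn σ (ball 0 r) ∧ σ 0 = y₀ ∧ (∀ u ∈ ball (0 : Cm n) r, σ u ∈ O) ∧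
      (∀ u ∈ ball (0 : Cm n) r, F (σ u) = F y₀ + L u) ∧
      (∀ᶠ y in 𝓝 y₀, φ y ∈ ball (0 : Cm n) r ∧ σ (φ y) = y) ∧ Function.Surjective L := by
  obtain ⟨-, φ, χ, -, hφ, hφ0, hχ, hχ0, h1, h2, h3⟩ := H625.exists_straight hfa hs
  set L : Cm n →L[ℂ] Cm q := fderiv ℂ f (e (p y₀)) with hL
  obtain ⟨h, hy₀, hh⟩ := hp.isLocalHomeomorph y₀
  have hpe : ∀ y, h y = p y := fun y => by rw [hh]
  set σ : Cm n → E := fun u => h.symm (e.symm (χ u)) with hσ
  have hex : e.symm (e (p y₀)) = p y₀ := e.left_inv he.2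
  have hmt : e (p y₀) ∈ e.target := e.map_source he.2
  have hht : p y₀ ∈ h.target := by rw [← hpe]; exact h.map_source hy₀
  have hσ0 : σ 0 = y₀ := by
    show h.symm (e.symm (χ 0)) = y₀
    rw [hχ0, hex, ← hpe, h.left_inv hy₀]
  have hcχ : Tendsto χ (𝓝 0) (𝓝 (e (p y₀))) := by
    have := hχ.continuousAt.tendsto
    rwa [hχ0] at this
  have hev1 : ∀ᶠ u in 𝓝 (0 : Cm n), AnalyticAt ℂ χ u ∧ χ u ∈ e.target ∧
      e.symm (χ u) ∈ h.target := by
    have hc2 : Tendsto (fun u => e.symm (χ u)) (𝓝 0) (𝓝 (p y₀)) := by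
      have := (e.continuousAt_symm hmt).tendsto.comp hcχ
      rwa [hex] at this
    filter_upwards [hχ.eventually_analyticAt, hcχ.eventually (e.open_target.mem_nhds hmt),
      hc2.eventually (h.open_target.mem_nhds hht)] with u g1 g2 g3
    exact ⟨g1, g2, g3⟩
  have hcont : ∀ u, AnalyticAt ℂ χ u → χ u ∈ e.target → e.symm (χ u) ∈ h.target →
      ContinuousAt σ u := by
    intro u g1 g2 g3
    have k1 : ContinuousAt (fun u => e.symm (χ u)) u :=
      ContinuousAt.comp (g := e.symm) (e.continuousAt_symm g2) g1.continuousAt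
    exact ContinuousAt.comp (g := h.symm) (f := fun u => e.symm (χ u)) (h.continuousAt_symm g3) k1
  have hσc0 : ContinuousAt σ 0 := by
    obtain ⟨g1, g2, g3⟩ := hev1.self_of_nhds
    exact hcont 0 g1 g2 g3
  have hσt : Tendsto σ (𝓝 0) (𝓝 y₀) := by
    have := hσc0.tendsto
    rwa [hσ0] at this
  have hev2 : ∀ᶠ u in 𝓝 (0 : Cm n), σ u ∈ O ∧ F (σ u) = f (e (p (σ u))) ∧
      f (χ u) = f (e (p y₀)) + L u := by
    filter_upwards [hσt.eventually hO, hσt.eventually hf, h3] with u g1 g2 g3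
    exact ⟨g1, g2, g3⟩
  obtain ⟨r, hr, hball⟩ := Metric.eventually_nhds_iff_ball.1 (hev1.and hev2)
  have hpσ : ∀ u ∈ ball (0 : Cm n) r, p (σ u) = e.symm (χ u) := by
    intro u hu
    rw [← hpe]
    exact h.right_inv (hball u hu).1.2.2
  refine ⟨σ, fun y => φ (e (p y)), L, r, hr, fun u hu => ?_, hσ0, fun u hu => (hball u hu).2.1,
    fun u hu => ?_, ?_, hs⟩
  · obtain ⟨⟨g1, g2, g3⟩, -⟩ := hball u hu
    exact (hcont u g1 g2 g3).continuousWithinAt
  · obtain ⟨⟨g1, g2, g3⟩, -, g5, g6⟩ := hball u hu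
    rw [g5, hpσ u hu, e.right_inv g2, g6, hf.self_of_nhds]
  · have hφc : Tendsto (fun y => φ (e (p y))) (𝓝 y₀) (𝓝 0) := by
      have := hφ.continuousAt.tendsto.comp (tendsto_ep hp he)
      rwa [hφ0] at this
    filter_upwards [hφc.eventually (ball_mem_nhds 0 hr), (tendsto_ep hp he).eventually h1,
      h.open_source.mem_nhds hy₀, at_ev hp he] with y g1 g2 g3 g4
    refine ⟨g1, ?_⟩
    show h.symm (e.symm (χ (φ (e (p y))))) = y
    rw [g2, e.left_inv g4.2, ← hpe, h.left_inv g3]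

theorem cont_F (hp : IsCoveringMap p) (hF : HolE n p F) : Continuous F := by
  rw [continuous_iff_continuousAt]
  intro y
  have he : At (chartAt (Cm n) (p y)) (p y) := ⟨chart_mem_atlas _ _, mem_chart_source _ _⟩
  obtain ⟨f, hf, hfa⟩ := hF y _ he
  have h1 : ContinuousAt (fun y' => f (chartAt (Cm n) (p y) (p y'))) y :=
    hfa.continuousAt.comp_of_eq (tendsto_ep hp he) rfl
  exact h1.congr_of_eventuallyEq hf

/-- `F` is open at regular points -/
theorem F_open (hp : IsCoveringMap p) (hF : HolE n p F) {y₀ : E} (hr : Reg (n := n) p F y₀)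
    {O : Set E} (hO : O ∈ 𝓝 y₀) : ∀ᶠ t in 𝓝 (F y₀), ∃ y ∈ O, F y = t := by
  have he : At (chartAt (Cm n) (p y₀)) (p y₀) := ⟨chart_mem_atlas _ _, mem_chart_source _ _⟩
  obtain ⟨f, hf, hfa⟩ := hF y₀ _ he
  obtain ⟨σ, φ, L, r, hr', hσc, hσ0, hσO, hFσ, -, hL⟩ := exists_boxE hp he hfa hf
    (hr _ f he hf) hO
  have h1 : IsOpenMap L := L.isOpenMap hL
  have h2 : L '' ball (0 : Cm n) r ∈ 𝓝 (0 : Cm q) := by
    have := h1.image_mem_nhds (ball_mem_nhds (0 : Cm n) hr')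
    rwa [map_zero] at this
  have h3 : Tendsto (fun t => t - F y₀) (𝓝 (F y₀)) (𝓝 0) := by
    have : Continuous fun t => t - F y₀ := by fun_prop
    simpa using this.tendsto (F y₀)
  filter_upwards [h3.eventually h2] with t ht
  obtain ⟨u, hu, hut⟩ := ht
  refine ⟨σ u, hσO u hu, ?_⟩
  rw [hFσ u hu, hut]
  abel

end

/-! ### Primitives -/

section
variable {n q : ℕ} {X : Type} [TopologicalSpace X] [ChartedSpace (Cm n) X]
  {E : Type} [TopologicalSpace E] {p : E → X} {F : E → Cm q}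
  {W : Type} [NormedAddCommGroup W] [InnerProductSpace ℂ W]

/-- `G` is a primitive of `Θ` near `y` in the chart `e` -/
structure Prm (p : E → X) (F : E → Cm q) (Θ : E → Chart n X → (Cm n →L[ℂ] W)) (y : E)
    (e : Chart n X) (G : Cm n → W) : Prop where
  mem : At e (p y)
  an : AnalyticAt ℂ G (e (p y))
  der : ∀ᶠ y' in 𝓝 y, ∀ ξ ∈ VS p F y' e, fderiv ℂ G (e (p y')) ξ = Θ y' e ξ

theorem Prm.near [CompleteSpace W] (hp : IsCoveringMap p)
    {Θ : E → Chart n X → (Cm n →L[ℂ] W)} {y : E} {e : Chart n X} {G : Cm n → W}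
    (h : Prm p F Θ y e G) : ∀ᶠ y' in 𝓝 y, Prm p F Θ y' e G := by
  have h1 : ∀ᶠ y' in 𝓝 y, AnalyticAt ℂ G (e (p y')) :=
    (ev_iff hp h.mem (Q := fun z => AnalyticAt ℂ G z)).2 h.an.eventually_analyticAt
  filter_upwards [at_ev hp h.mem, h1, h.der.eventually_nhds] with y' g1 g2 g3
  exact ⟨g1, g2, g3⟩

/-- the real map of a primitive -/
def RJ (p : E → X) (J : W →SL[starRingEnd ℂ] W) (e : Chart n X) (G : Cm n → W) (y : E) : W :=
  G (e (p y)) + J (G (e (p y)))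

/-- **A system of potentials**: `u t` is a potential of `Θ` on the fibre `F = t` for `t ∉ T`. -/
structure PotSys (n : ℕ) {X : Type} [TopologicalSpace X] [ChartedSpace (Cm n) X] (p : E → X)
    (F : E → Cm q) (T : Set (Cm q)) (J : W →SL[starRingEnd ℂ] W)
    (Θ : E → Chart n X → (Cm n →L[ℂ] W)) (u : Cm q → E → W) : Prop where
  closed : IsClosed T
  conn : ∀ t ∉ T, IsConnected (F ⁻¹' {t})
  reg : ∀ y, F y ∉ T → Reg (n := n) p F y
  prim : ∀ y e, F y ∉ T → At e (p y) → ∃ G, Prm p F Θ y e G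
  change : ∀ y (e e' : Chart n X), F y ∉ T → At e (p y) → At e' (p y) → ∀ ξ ∈ VS p F y e,
    Θ y e ξ = Θ y e' (fderiv ℂ (fun z => e' (e.symm z)) (e (p y)) ξ)
  pot : ∀ t ∉ T, VPotJ n p F t J Θ (u t)

/-- the difference of the potentials near `(a, b)` -/
def DR (F : E → Cm q) (J : W →SL[starRingEnd ℂ] W) (u : Cm q → E → W) (a b : E) (A B : E → W)
    (Q : Cm q → W) : Prop :=
  ∀ᶠ z in 𝓝 a ×ˢ 𝓝 b, F z.1 = F z.2 →
    u (F z.1) z.2 - u (F z.1) z.1 = B z.2 - A z.1 + (Q (F z.1) + J (Q (F z.1)))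

variable {J : W →SL[starRingEnd ℂ] W} {u : Cm q → E → W}

theorem DR.symm {a b : E} {A B : E → W} {Q : Cm q → W} (h : DR F J u a b A B Q) :
    DR F J u b a B A (fun t => - Q t) := by
  have h1 : ∀ᶠ z in 𝓝 b ×ˢ 𝓝 a, F z.2 = F z.1 →
    u (F z.2) z.1 - u (F z.2) z.2 = B z.1 - A z.2 + (Q (F z.2) + J (Q (F z.2))) := by
    exact Filter.eventually_swap_iff.1 h
  filter_upwards [h1] with z g1 g2
  have := g1 g2.symm
  rw [← g2] at this
  rw [map_neg, ← neg_sub, this]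
  abel

theorem DR.near_right {a b : E} {A B : E → W} {Q : Cm q → W} (h : DR F J u a b A B Q) :
    ∀ᶠ b' in 𝓝 b, DR F J u a b' A B Q := by
  obtain ⟨U, hU, V, hV, hUV⟩ := Filter.mem_prod_iff.1 h
  filter_upwards [eventually_mem_nhds_iff.2 hV] with b' hb'
  exact Filter.mem_prod_iff.2 ⟨U, hU, V, hb', hUV⟩

theorem DR.near_left {a b : E} {A B : E → W} {Q : Cm q → W} (h : DR F J u a b A B Q) :
    ∀ᶠ a' in 𝓝 a, DR F J u a' b A B Q := by
  obtain ⟨U, hU, V, hV, hUV⟩ := Filter.mem_prod_iff.1 h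
  filter_upwards [eventually_mem_nhds_iff.2 hU] with a' ha'
  exact Filter.mem_prod_iff.2 ⟨U, ha', V, hV, hUV⟩

theorem DR.trans {a b c : E} {A B C : E → W} {Q Q' : Cm q → W} (h : DR F J u a b A B Q)
    (h' : DR F J u b c B C Q') (hFa : ContinuousAt F a) (hab : F a = F b)
    (hopen : ∀ O ∈ 𝓝 b, ∀ᶠ t in 𝓝 (F b), ∃ y ∈ O, F y = t) :
    DR F J u a c A C (fun t => Q t + Q' t) := by
  obtain ⟨U, hU, V, hV, hUV⟩ := Filter.mem_prod_iff.1 h
  obtain ⟨V', hV', Z, hZ, hVZ⟩ := Filter.mem_prod_iff.1 h'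
  have h1 : ∀ᶠ x in 𝓝 a, ∃ y ∈ V ∩ V', F y = F x := by
    refine hFa.eventually (p := fun t => ∃ y ∈ V ∩ V', F y = t) ?_
    rw [hab]
    exact hopen _ (inter_mem hV hV')
  refine Filter.mem_prod_iff.2 ⟨_, inter_mem hU h1, Z, hZ, ?_⟩
  rintro ⟨x, z⟩ ⟨⟨hx, y, hy, hyx⟩, hz⟩ hxz
  have hxz' : F x = F z := hxz
  have e1 := hUV (show (x, y) ∈ U ×ˢ V from ⟨hx, hy.1⟩) hyx.symm
  have e2 := hVZ (show (y, z) ∈ V' ×ˢ Z from ⟨hy.2, hz⟩) (hyx.trans hxz')
  simp only [hyx] at e2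
  simp only at e1
  show u (F x) z - u (F x) x = C z - A x + ((Q (F x) + Q' (F x)) + J (Q (F x) + Q' (F x)))
  have e3 : u (F x) z - u (F x) x = (u (F x) y - u (F x) x) + (u (F x) z - u (F x) y) := by abel
  rw [e3, e1, e2, map_add]
  abel

/-- change of the right primitive by a function of `F` -/
theorem DR.change_right {a b : E} {A B B' : E → W} {Q Q' : Cm q → W} (h : DR F J u a b A B Q)
    (hB : ∀ᶠ y in 𝓝 b, B' y = B y + (Q' (F y) + J (Q' (F y)))) :
    DR F J u a b A B' (fun t => Q t - Q' t) := by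
  filter_upwards [h, (tendsto_snd (f := 𝓝 a) (g := 𝓝 b)).eventually hB] with z g1 g2 g3
  rw [g1 g3, g2, g3, map_sub]
  abel


/-- primitives at the same point -/
theorem DR.box [CompleteSpace W] (hp : IsCoveringMap p) (hF : HolE n p F) {T : Set (Cm q)}
    {Θ : E → Chart n X → (Cm n →L[ℂ] W)} (hu : PotSys n p F T J Θ u) {y₀ : E} (hy₀ : F y₀ ∉ T)
    {e : Chart n X} {G : Cm n → W} (hG : Prm p F Θ y₀ e G) :
    DR F J u y₀ y₀ (RJ p J e G) (RJ p J e G) (fun _ => 0) := by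
  have hFc : ContinuousAt F y₀ := (cont_F hp hF).continuousAt
  have hO : ∀ᶠ y in 𝓝 y₀, Prm p F Θ y e G ∧ F y ∉ T :=
    (hG.near hp).and (hFc.eventually (hu.closed.isOpen_compl.mem_nhds hy₀))
  obtain ⟨f, hf, hfa⟩ := hF y₀ e hG.mem
  obtain ⟨σ, φ, L, r, hr, hσc, hσ0, hσO, hFσ, hφ, -⟩ := exists_boxE hp hG.mem hfa hf
    (hu.reg y₀ hy₀ _ f hG.mem hf) hO
  -- constancy on the plaques
  have key : ∀ t : Cm q, ∀ x ∈ ball (0 : Cm n) r ∩ {x | F y₀ + L x = t},
      ∀ x' ∈ ball (0 : Cm n) r ∩ {x | F y₀ + L x = t},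
      u t (σ x) - RJ p J e G (σ x) = u t (σ x') - RJ p J e G (σ x') := by
    intro t
    have hconv : Convex ℝ (ball (0 : Cm n) r ∩ {x | F y₀ + L x = t}) := by
      refine (convex_ball _ _).inter ?_
      have h1 : {x : Cm n | F y₀ + L x = t} =
          ((L : Cm n →ₗ[ℂ] Cm q).restrictScalars ℝ) ⁻¹' {t - F y₀} := by
        ext x
        show F y₀ + L x = t ↔ L x = t - F y₀
        rw [eq_sub_iff_add_eq']
      rw [h1]
      exact (convex_singleton _).linear_preimage _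
    intro x hx x' hx'
    refine hconv.isPreconnected.induction₂ (fun a b => u t (σ a) - RJ p J e G (σ a) =
      u t (σ b) - RJ p J e G (σ b)) (fun a ha => ?_) (fun a b c _ _ _ h1 h2 => h1.trans h2)
      (fun a b _ _ h => h.symm) hx hx'
    obtain ⟨haP, haT⟩ := hσO a ha.1
    have hFa : F (σ a) = t := by rw [hFσ a ha.1]; exact ha.2
    obtain ⟨c₀, hc₀⟩ := hu.pot t (by rw [← hFa]; exact haT) (σ a) e G hFa haP.mem haP.an
      (haP.der.mono fun y' h _ => h)
    have hσa : Tendsto σ (𝓝[ball 0 r] a) (𝓝 (σ a)) := hσc a ha.1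
    have hσa' : Tendsto σ (𝓝[ball (0 : Cm n) r ∩ {x | F y₀ + L x = t}] a) (𝓝 (σ a)) :=
      hσa.mono_left (nhdsWithin_mono _ inter_subset_left)
    have e1 := hc₀.self_of_nhds hFa
    filter_upwards [hσa'.eventually hc₀, self_mem_nhdsWithin] with b hb hbm
    have hFb : F (σ b) = t := by rw [hFσ b hbm.1]; exact hbm.2
    rw [e1, hb hFb, RJ, RJ]
    abel
  filter_upwards [prod_mem_prod hφ hφ] with z hz hzz
  obtain ⟨⟨h1, h2⟩, h3, h4⟩ := hz
  have e1 : F y₀ + L (φ z.1) = F z.1 := by rw [← hFσ _ h1, h2]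
  have e2 : F y₀ + L (φ z.2) = F z.1 := by rw [← hFσ _ h3, h4, hzz]
  have := key (F z.1) _ ⟨h1, e1⟩ _ ⟨h3, e2⟩
  rw [h2, h4] at this
  rw [map_zero, add_zero, add_zero]
  have h5 := sub_eq_sub_iff_sub_eq_sub.1 this
  rw [← neg_sub, h5, neg_sub]

/-- two primitives at the same point differ by a function of `F` -/
theorem prm_diff [CompleteSpace W] [IsManifold 𝓘(ℂ, Cm n) ω X] (hp : IsCoveringMap p)
    (hF : HolE n p F) {T : Set (Cm q)} (hT : IsClosed T)
    {Θ : E → Chart n X → (Cm n →L[ℂ] W)} {y : E} {e e' : Chart n X} (hy : F y ∉ T)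
    (hreg : Reg (n := n) p F y)
    (hch : ∀ y (e e' : Chart n X), F y ∉ T → At e (p y) → At e' (p y) → ∀ ξ ∈ VS p F y e,
      Θ y e ξ = Θ y e' (fderiv ℂ (fun z => e' (e.symm z)) (e (p y)) ξ)) {G G' : Cm n → W}
    (hG : Prm p F Θ y e G) (hG' : Prm p F Θ y e' G') :
    ∃ Q : Cm q → W, AnalyticAt ℂ Q (F y) ∧
      ∀ᶠ y' in 𝓝 y, G' (e' (p y')) = G (e (p y')) + Q (F y') := by
  obtain ⟨f, hf, hfa⟩ := hF y e hG.mem
  have hfe : f (e (p y)) = F y := hf.self_of_nhds.symm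
  have hFc : ContinuousAt F y := (cont_F hp hF).continuousAt
  set τ : Cm n → Cm n := fun x => e' (e.symm x) with hτ
  have hτz : τ (e (p y)) = e' (p y) := by
    show e' (e.symm (e (p y))) = e' (p y)
    rw [e.left_inv hG.mem.2]
  have hτan : AnalyticAt ℂ τ (e (p y)) := (transition hG.mem hG'.mem).analyticAt
  have hGτ : AnalyticAt ℂ (fun x => G' (τ x)) (e (p y)) := by
    refine AnalyticAt.comp (g := G') ?_ hτan
    rw [hτz]
    exact hG'.an
  have hev1 : ∀ᶠ y' in 𝓝 y, AnalyticAt ℂ G' (e' (p y')) :=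
    (ev_iff hp hG'.mem (Q := fun z => AnalyticAt ℂ G' z)).2 hG'.an.eventually_analyticAt
  have hev2 : ∀ᶠ y' in 𝓝 y, AnalyticAt ℂ G (e (p y')) ∧ AnalyticAt ℂ τ (e (p y')) :=
    (ev_iff hp hG.mem (Q := fun z => AnalyticAt ℂ G z ∧ AnalyticAt ℂ τ z)).2
      (hG.an.eventually_analyticAt.and hτan.eventually_analyticAt)
  obtain ⟨Q, hQ, hQe⟩ := H625.exists_desc (F := fun z => G' (τ z) - G z) hfa
    (hreg e f hG.mem hf) (hGτ.sub hG.an) (by
      rw [← ev_iff hp hG.mem]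
      filter_upwards [hev1, hev2, at_ev hp hG.mem, at_ev hp hG'.mem, hG.der, hG'.der,
        hf.eventually_nhds, hFc.eventually (hT.isOpen_compl.mem_nhds hy)] with
        y' g1 g2 g3 g4 g5 g6 g7 g8 ξ hξ
      have hτz' : τ (e (p y')) = e' (p y') := by
        show e' (e.symm (e (p y'))) = e' (p y')
        rw [e.left_inv g3.2]
      have hvs : ξ ∈ VS p F y' e := by
        rw [mem_VS_iff hp hF g3, dFe_eq hp g3 g7]
        exact hξ
      have hvs' : fderiv ℂ τ (e (p y')) ξ ∈ VS p F y' e' := by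
        rw [mem_VS_iff hp hF g4]
        have h1 := (mem_VS_iff hp hF g3).1 hvs
        rw [dFe_change hp hF g3 g4] at h1
        exact h1
      have h3 : HasFDerivAt (fun x => G' (τ x)) ((fderiv ℂ G' (τ (e (p y')))).comp
          (fderiv ℂ τ (e (p y')))) (e (p y')) :=
        HasFDerivAt.comp (g := G') (e (p y'))
          (by rw [hτz']; exact g1.differentiableAt.hasFDerivAt) g2.2.differentiableAt.hasFDerivAt
      have h4 : HasFDerivAt (fun z => G' (τ z) - G z) ((fderiv ℂ G' (τ (e (p y')))).comp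
          (fderiv ℂ τ (e (p y'))) - fderiv ℂ G (e (p y'))) (e (p y')) :=
        h3.sub g2.1.differentiableAt.hasFDerivAt
      rw [h4.fderiv, sub_apply, ContinuousLinearMap.comp_apply, hτz', g6 _ hvs', g5 _ hvs,
        hch y' e e' g8 g3 g4 ξ hvs, sub_self])
  refine ⟨Q, by rwa [hfe] at hQ, ?_⟩
  filter_upwards [(ev_iff hp hG.mem).2 hQe, hf, at_ev hp hG.mem] with y' g1 g2 g3
  have hτz' : τ (e (p y')) = e' (p y') := by
    show e' (e.symm (e (p y'))) = e' (p y')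
    rw [e.left_inv g3.2]
  rw [g2, ← g1, hτz']
  abel

/-- **D1**: the difference of the potentials over the fibre product is locally the real part of an
analytic map. -/
theorem disp_rel [CompleteSpace W] [IsManifold 𝓘(ℂ, Cm n) ω X] (hp : IsCoveringMap p)
    (hF : HolE n p F) {T : Set (Cm q)} {Θ : E → Chart n X → (Cm n →L[ℂ] W)}
    (hu : PotSys n p F T J Θ u) {t₀ : Cm q} (ht₀ : t₀ ∉ T) {a b : E} (ha : F a = t₀)
    (hb : F b = t₀) {e e' : Chart n X} {G G' : Cm n → W} (hG : Prm p F Θ a e G)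
    (hG' : Prm p F Θ b e' G') :
    ∃ Q : Cm q → W, AnalyticAt ℂ Q t₀ ∧ DR F J u a b (RJ p J e G) (RJ p J e' G') Q := by
  have hFc : ∀ y, ContinuousAt F y := fun y => (cont_F hp hF).continuousAt
  have hop : ∀ y, F y ∉ T → ∀ O ∈ 𝓝 y, ∀ᶠ t in 𝓝 (F y), ∃ y' ∈ O, F y' = t := fun y hy O hO =>
    F_open hp hF (hu.reg y hy) hO
  -- the statement for some primitive
  have key : ∀ y, F y = t₀ → ∃ (e' : Chart n X) (G' : Cm n → W) (Q : Cm q → W),
      Prm p F Θ y e' G' ∧ AnalyticAt ℂ Q t₀ ∧ DR F J u a y (RJ p J e G) (RJ p J e' G') Q := by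
    refine fib_ind (hu.conn t₀ ht₀).isPreconnected (fun y₁ hy₁ => ?_) ha
      ⟨e, G, fun _ => 0, hG, analyticAt_const, DR.box hp hF hu (by rwa [ha]) hG⟩
    have hyT : F y₁ ∉ T := by rwa [hy₁]
    have he₁ : At (chartAt (Cm n) (p y₁)) (p y₁) := ⟨chart_mem_atlas _ _, mem_chart_source _ _⟩
    obtain ⟨G₁, hG₁⟩ := hu.prim y₁ _ hyT he₁
    have hbox := DR.box hp hF hu hyT hG₁
    have hsymm := hbox.symm
    filter_upwards [hbox.near_right, hbox.near_left, hG₁.near hp] with y h1 h2 h3 hy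
    have hyT' : F y ∉ T := by rwa [hy]
    -- passage between two near points with the primitive `G₁`
    have step : ∀ x x' : E, F x = t₀ → F x' = t₀ → Prm p F Θ x (chartAt (Cm n) (p y₁)) G₁ →
        Prm p F Θ x' (chartAt (Cm n) (p y₁)) G₁ →
        DR F J u x x' (RJ p J (chartAt (Cm n) (p y₁)) G₁) (RJ p J (chartAt (Cm n) (p y₁)) G₁)
          (fun _ => 0) →
        (∃ (e' : Chart n X) (G' : Cm n → W) (Q : Cm q → W),
          Prm p F Θ x e' G' ∧ AnalyticAt ℂ Q t₀ ∧ DR F J u a x (RJ p J e G) (RJ p J e' G') Q) →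
        ∃ (e' : Chart n X) (G' : Cm n → W) (Q : Cm q → W),
          Prm p F Θ x' e' G' ∧ AnalyticAt ℂ Q t₀ ∧
            DR F J u a x' (RJ p J e G) (RJ p J e' G') Q := by
      rintro x x' hx hx' hP hP' hD ⟨e₂, G₂, Q, hG₂, hQ, hDR⟩
      have hxT : F x ∉ T := by rwa [hx]
      obtain ⟨Q', hQ', hQe⟩ := prm_diff hp hF hu.closed hxT (hu.reg x hxT) hu.change hG₂ hP
      have h4 : DR F J u a x (RJ p J e G) (RJ p J (chartAt (Cm n) (p y₁)) G₁)
          (fun t => Q t - Q' t) := by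
        refine hDR.change_right ?_
        filter_upwards [hQe] with y' g1
        rw [RJ, RJ, g1, map_add]
        abel
      refine ⟨_, G₁, _, hP', ?_, h4.trans hD (hFc a) (by rw [ha, hx]) (hop x hxT)⟩
      rw [hx] at hQ'
      exact (hQ.sub hQ').add analyticAt_const
    have h2' : DR F J u y y₁ (RJ p J (chartAt (Cm n) (p y₁)) G₁)
        (RJ p J (chartAt (Cm n) (p y₁)) G₁) (fun _ => 0) := h2
    exact ⟨step y₁ y hy₁ hy hG₁ h3 h1, step y y₁ hy hy₁ h3 hG₁ h2'⟩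
  obtain ⟨e₂, G₂, Q, hG₂, hQ, hDR⟩ := key b hb
  have hbT : F b ∉ T := by rwa [hb]
  obtain ⟨Q', hQ', hQe⟩ := prm_diff hp hF hu.closed hbT (hu.reg b hbT) hu.change hG₂ hG'
  rw [hb] at hQ'
  refine ⟨fun t => Q t - Q' t, hQ.sub hQ', hDR.change_right ?_⟩
  filter_upwards [hQe] with y' g1
  rw [RJ, RJ, g1, map_add]
  abel

end

end Vale.Agent.P284.H366.J
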