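import Vale.Agent.P284.H366.J.Res
import Vale.Agent.P284.H402.T.LimAtT

/-!
# P284 (helper366), theorem T3⁺: the limit with its real structure, `LimAtTJ`
-/

open scoped Manifold ContDiff Topology InnerProductSpace ComplexConjugate ENNReal Matrix
open Filter Set MeasureTheory

noncomputable section

set_option linter.unusedSectionVars false

namespace Vale.Agent.P284.H366.J

open Vale.Agent.P272.K Vale.Agent.P284.H894 Vale.Agent.P284.H894.G Vale.Agent.P284.H894.V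
  Vale.Agent.P284.H894.W Vale.Agent.P284.H501 Vale.Agent.P284.H501.Core Vale.Agent.P284.H619
  Vale.Agent.P284.H619.Pot
  Vale.Agent.P284.H402.A Vale.Agent.P284.H402.B Vale.Agent.P284.H551 Vale.Agent.P284.H494
  Vale.Agent.P284.H213.Grp Vale.Agent.P284.H913.V Vale.Agent.P284.H119.Kaz Vale.Agent.P284.H366

/-- **the limit with its real structure** if `K` does not have property (T): `LimAtT` with a
conjugation `J` of `W`; `W` is the closed span of the values of `S` and `J S`; over every connected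
regular fibre there is a potential `u = G + J G + c₀`. -/
def LimAtTJ (q : ℕ) : Prop :=
  ∀ (n : ℕ) (X : Type) [TopologicalSpace X] [T2Space X] [CompactSpace X] [ConnectedSpace X]
    [ChartedSpace (Cm n) X] [IsManifold 𝓘(ℂ, Cm n) ω X]
    (w : Chart n X → Cm n → Matrix (Fin n) (Fin n) ℂ), IsKahler w →
    ∀ (E Γ : Type) [TopologicalSpace E] [ConnectedSpace E] [Group Γ] [MulAction Γ E]
      (p : E → X), IsGalois Γ p →
    ∀ (F : E → Cm q) (c : Γ → Cm q) (K : Subgroup Γ), (∃ B, HolB p w F B) →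
      (∀ g y, F (g • y) = F y + c g) → (∃ y, Reg (n := n) p F y) → GenConn (n := n) p F →
      LatChar Γ q c → K.Normal → (∀ g ∈ K, c g = 0) →
      (∃ A : Set Γ, A.Finite ∧ ∀ g, c g = 0 → ∃ f ∈ A, f⁻¹ * g ∈ K) → ¬ Kazhdan K →
    ∀ (ι : Type) [Fintype ι] (ζ : ι → Γ), (∀ i g, ζ i * g = g * ζ i) →
    ∃ (W : Type) (_ : NormedAddCommGroup W) (_ : InnerProductSpace ℂ W) (_ : CompleteSpace W)
      (π : Γ →* (W ≃ₗᵢ[ℂ] W)) (S : E → Chart n X → Cm n [⋀^Fin (q + 1)]→L[ℂ] W)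
      (Θ : E → Chart n X → (Cm n →L[ℂ] W)) (J : W →SL[starRingEnd ℂ] W),
      SRel p F π S Θ ∧ (∀ i, π (ζ i) = 1) ∧
      (∀ x, J (J x) = x) ∧ (∀ x y, ⟪J x, J y⟫_ℂ = ⟪y, x⟫_ℂ) ∧ (∀ g x, J (π g x) = π g (J x)) ∧
      (∀ x : W, (∀ y e, At e (p y) → ∀ ξ, ⟪x, S y e ξ⟫_ℂ = 0) →
        (∀ y e, At e (p y) → ∀ ξ, ⟪J x, S y e ξ⟫_ℂ = 0) → x = 0) ∧
      ∀ t : Cm q, IsConnected (F ⁻¹' {t}) → (∀ y, F y = t → Reg (n := n) p F y) →
        ∃ u : E → W, VPotJ n p F t J Θ u ∧ VPot p F t W Θ u ∧ (∀ y, J (u y) = u y) ∧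
          (∀ L : Subgroup Γ, (∀ g ∈ L, c g = 0) → VEqui p F t L π Θ u) ∧
          ∀ g, c g = 0 → ∃ b : W, ∀ y, F y = t → u (g • y) = π g (u y) + b

/-- **The assembly.** -/
theorem limAtTJ_of {q : ℕ} (hq : 1 ≤ q) (h402 : AOutVStmt) (h15 : PushVStmt) (h366 : PotVJStmt) :
    LimAtTJ q := by
  intro n X _ _ _ _ _ _ w hw E Γ _ _ _ _ p hG F c N hBB hc hreg hconn hlat hnorm hsub hfi hkaz
    ι _ ζ hζ
  obtain ⟨B, hB⟩ := hBB
  obtain ⟨C, D, KK, ⟨P⟩, hKw⟩ := exists_eCoc hw hG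
  set θ := hfF hG D KK hKw hB hc hreg with hθ
  set U : Ultrafilter ℕ := hyperfilter ℕ with hUd
  have hU : (U : Filter ℕ) ≤ atTop := Nat.hyperfilter_le_atTop
  obtain ⟨Dm, hDm⟩ := exists_MD C P.K P.compactK P.K_sub
  obtain ⟨V, i1, i2, i3, ρ, v, hA⟩ := h402 n X w hw E Γ p hG C D KK hKw P q hq F c B hB hc hreg hconn
    hlat N hnorm hsub hfi hkaz ι ζ hζ U hU
  set u : ∀ k, Γ → C.I → Cm n → CW (V k) := fun k γ a z => CW.inc (V k) (v k γ a z) with hu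
  have hvm : ∀ k, VMap C (CW.rep (ρ k)) (u k) := fun k => vmap_of_sec (hA.sec k)
  have hseq : VSeq C U (fun k => CW.rep (ρ k)) fun k => vtf θ (u k) := hA.seq
  set s := LimV Dm U (fun k => vtf θ (u k)) with hs
  set πU : Γ →* (UP (fun k => CW (V k)) U ≃ₗᵢ[ℂ] UP (fun k => CW (V k)) U) :=
    upRep U fun k => CW.rep (ρ k) with hπU
  have hcf : CForm C Dm.Q s := cform_limV Dm hseq
  have hHolE : HolE n p F := fun y e he => by
    obtain ⟨f, hf⟩ := rep_of_holB hG D hB y e he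
    exact ⟨f, hf.2, hf.1⟩
  have hne : ∃ γ a, ∃ z ∈ Dm.Q a, s γ a z ≠ 0 := by
    obtain ⟨a, z, hz, h⟩ := LimV_ne Dm hDm hseq hA.one
    exact ⟨1, a, z, hz, h⟩
  have hHol : H650.HolF C (Fc D F) :=
    ⟨fun γ a z hz => (Fc_hol hG D hB γ hz).1.differentiableWithinAt, (tMap hG D hB).compat⟩
  obtain ⟨Ac, hAc, hpush⟩ := h15 n q (q + 1) Γ C P KK (Fc D F) c hHol
    (fun g γ a z _ => by rw [Fc, Fc, mul_smul, hc]) hlat.disc (lat_co hlat) _ U _ _ hseq hA.flat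
    Dm hDm
  set S := SE hG D s with hS
  have hrel : ∀ γ a, ∀ z ∈ Dm.Q a, Function.Surjective (fderiv ℂ (Fc D F γ a) z) →
      ∀ (ξ : Fin (q + 1) → Cm n) (i j : Fin (q + 1)), i ≠ j →
        fderiv ℂ (Fc D F γ a) z (ξ i) = 0 → fderiv ℂ (Fc D F γ a) z (ξ j) = 0 →
        s γ a z ξ = 0 := by
    intro γ a z hz hsur ξ i j hij hi hj
    exact LimV_rel Dm θ hseq γ a hz (inj_of_surj (thF_apply D hc γ a z) hsur) hij
      ((vert_iff hc γ a z (ξ i)).1 hi) ((vert_iff hc γ a z (ξ j)).1 hj)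
  have hRel : RelS p F S := relS_of hG D hcf hB hrel ⟨Ac, hAc, hpush⟩
  obtain ⟨-, hcl, heq, y₀, e₀, ξ₀, he₀, hne₀⟩ :=
    limEV hG D Dm hseq (fun k => vtf_closed θ (hvm k)) hne
  have hRE : RelE p F S := relE_of hG.cov hHolE hRel.rel
  have hpg : ∀ (g : Γ) y, p (g • y) = p y := fun g y => ECoc.p_smul hG g y
  -- the conjugation
  have hcn : ∀ k (x : CW (V k)), ‖CW.cj (V k) x‖ ≤ ‖x‖ := fun k x => (CW.norm_cj x).le
  set Cu := upMap U (fun k => CW.cj (V k)) (Jbd hcn) with hCu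
  have hC : IsConj πU Cu := isConj_up hcn (fun k x => by
    rw [CW.cj_apply, CW.cj_apply]
    exact CW.ext' rfl (neg_neg _))
    (fun k x y => CW.inner_cj x y) (fun k g x => CW.cj_rep (ρ k) g x)
  obtain ⟨W₀, i1', i2', i3', Pr, J, π₀, hR⟩ := exists_restrJ πU (H275.vals p S) (by
    rintro g _ ⟨y, e, ξ, he, rfl⟩
    refine ⟨g • y, e, ξ, ?_, heq g y e he ξ⟩
    rw [hpg]
    exact he) hC
  have hAC := conj_mem hC (H275.vals p S)
  have hC₀ := isConj_cj₀ hR hAC hC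
  have hJP : ∀ y e, At e (p y) → ∀ ξ, J (Pr (S y e ξ)) = S y e ξ := fun y e he ξ =>
    hR.JP _ (Or.inl ⟨y, e, ξ, he, rfl⟩)
  have hTh : H275.mapT Pr (ThE p F S) = ThE p F (H275.mapF Pr S) := by
    funext y e
    ext v
    rw [H275.mapT_apply, ThE, ThE, sl_apply, sl_apply, H275.mapF_apply]
  have hJT : ∀ y e, At e (p y) → ∀ ξ, J (Pr (ThE p F S y e ξ)) = ThE p F S y e ξ := by
    intro y e he ξ
    rw [ThE, sl_apply]
    exact hJP y e he _
  refine ⟨W₀, i1', i2', i3', π₀, H275.mapF Pr S, H275.mapT Pr (ThE p F S), cj₀ Pr J Cu,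
    ⟨H275.relS_map hG.cov Pr hRel, ?_, H275.equi_map hR heq, ?_, ?_⟩, ?_, hC₀.inv, hC₀.inner,
    hC₀.comm, ?_, ?_⟩
  · exact fun y e s' he hs' hev => H275.closed_map hG.cov Pr hRel.form hcl y e s' he hev
  · refine ⟨y₀, e₀, he₀, ξ₀, fun h0 => hne₀ ?_⟩
    rw [← hJP y₀ e₀ he₀ ξ₀]
    have h1 : Pr (S y₀ e₀ ξ₀) = 0 := h0
    rw [h1, map_zero]
  · rw [hTh]
    exact ThE_isTh hG.cov
  · intro i
    have hi : ∀ y e, At e (p y) → ∀ ξ, πU (ζ i) (S y e ξ) = S y e ξ := by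
      intro y e he ξ
      rw [← heq (ζ i) y e he ξ]
      exact SE_inv hG D hcf (fun γ a z hz => LimV_cen Dm hseq (hζ i) (hA.cen i) γ a hz) y he ξ
    refine hR.triv _ ?_
    rintro _ (⟨y, e, ξ, he, rfl⟩ | ⟨_, ⟨y, e, ξ, he, rfl⟩, rfl⟩)
    · exact hi y e he ξ
    · rw [← hC.comm, hi y e he ξ]
  · intro x hx hx'
    refine hR.dense x ?_
    rintro _ (⟨y, e, ξ, he, rfl⟩ | ⟨_, ⟨y, e, ξ, he, rfl⟩, rfl⟩)
    · exact hx y e he ξ
    · rw [← cj₀_P hR hAC hC, hC₀.inner_right]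
      have := hx' y e he ξ
      rw [H275.mapF_apply] at this
      rw [this, map_zero]
  · intro t hcon hregt
    obtain ⟨v', hv1, hv2, hv3⟩ := h366 n X w hw E Γ p hG C D KK hKw q F c B hB hc hreg _ U
      (fun k => CW.rep (ρ k)) (fun k => CW.cj (V k)) hcn
      (fun k g x => CW.cj_rep (ρ k) g x) u hvm (fun k γ a z => CW.cj_inc _) hseq Dm t hcon hregt
    set v₁ : E → UP (fun k => CW (V k)) U := fun y => (1 / 2 : ℂ) • (v' y + Cu (v' y)) with hv₁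
    have hvJ : VPotJ n p F t Cu (ThE p F S) v₁ := vpotJ_real hC hv1
    have hvP : VPot p F t _ (ThE p F S) v₁ := by
      refine vpot_of hG.cov hC ?_ ?_ hv2 hvJ
      · intro y e hy he
        obtain ⟨A', h1, h2⟩ := ThE_hol hG.cov hHolE hRE hRel.form he
          (reg_dFe hG.cov hHolE he (hregt y hy))
        exact ⟨A', h1, h2.mono fun y' h3 _ => h3⟩
      · intro y e e' hy he he' ξ hξ
        exact ThE_change hG.cov hHolE hRE hRel.form he he' (hregt y hy) hξ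
    have hve : ∀ g : Γ, c g = 0 → ∃ b, ∀ y, F y = t → v₁ (g • y) = πU g (v₁ y) + b := by
      intro g hg
      obtain ⟨b, hb⟩ := hv3 g hg
      refine ⟨(1 / 2 : ℂ) • (b + Cu b), fun y hy => ?_⟩
      show (1 / 2 : ℂ) • (v' (g • y) + Cu (v' (g • y))) = πU g ((1 / 2 : ℂ) • (v' y + Cu (v' y))) + _
      rw [hb y hy, map_smul, map_add, map_add, ← hC.comm]
      module
    refine ⟨fun y => Pr (v₁ y), vpotJ_map hG.cov hR hJT hvJ, H275.vpot_map hR hvP, ?_, fun L hL =>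
      H275.vequi_map hR ⟨?_, fun k hk => hve k (hL k hk)⟩, ?_⟩
    · intro y
      rw [cj₀_P hR hAC hC]
      congr 1
      show Cu ((1 / 2 : ℂ) • (v' y + Cu (v' y))) = (1 / 2 : ℂ) • (v' y + Cu (v' y))
      rw [map_smulₛₗ, map_add, hC.inv, add_comm]
      congr 1
      rw [map_div₀, map_one, Complex.conj_ofNat]
    · intro k hk y e hy he ξ hξ
      exact ThE_equi hG hHolE hc heq k he ξ
    · intro g hg
      obtain ⟨b, hb⟩ := hve g hg
      refine ⟨Pr b, fun y hy => ?_⟩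
      show Pr (v₁ (g • y)) = _
      rw [hb y hy, map_add, hR.Pπ]

/-- **The limit with its real structure**, `q ≥ 1` -/
theorem limAtTJ {q : ℕ} (hq : 1 ≤ q) : LimAtTJ q :=
  limAtTJ_of hq H402.T.aOutVStmt H15.V.pushV potVJ

end Vale.Agent.P284.H366.J
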