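import Vale.Agent.P284.H366.J.Pot
import Vale.Agent.P284.H275.ResE

/-!
# P284 (helper366), theorem T3⁺: restriction to the closed span of the values of `S` and `C S`
-/

open scoped Manifold ContDiff Topology InnerProductSpace ComplexConjugate ENNReal Matrix
open Filter Set MeasureTheory Metric

noncomputable section

set_option linter.unusedSectionVars false

namespace Vale.Agent.P284.H366.J

open Vale.Agent.P272.K Vale.Agent.P284.H894 Vale.Agent.P284.H894.G Vale.Agent.P284.H894.V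
  Vale.Agent.P284.H894.W Vale.Agent.P284.H501 Vale.Agent.P284.H501.Core Vale.Agent.P284.H619
  Vale.Agent.P284.H619.Pot
  Vale.Agent.P284.H402.A Vale.Agent.P284.H551 Vale.Agent.P284.H366

/-- `C` is a conjugation which commutes with the representation `π`. -/
structure IsConj {Γ : Type} [Group Γ] {W : Type} [NormedAddCommGroup W] [InnerProductSpace ℂ W]
    (π : Γ →* (W ≃ₗᵢ[ℂ] W)) (C : W →SL[starRingEnd ℂ] W) : Prop where
  inv : ∀ x, C (C x) = x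
  inner : ∀ x y, ⟪C x, C y⟫_ℂ = ⟪y, x⟫_ℂ
  comm : ∀ g x, C (π g x) = π g (C x)

namespace IsConj

variable {Γ : Type} [Group Γ] {W : Type} [NormedAddCommGroup W] [InnerProductSpace ℂ W]
  {π : Γ →* (W ≃ₗᵢ[ℂ] W)} {C : W →SL[starRingEnd ℂ] W}

theorem inner_right (h : IsConj π C) (x y : W) : ⟪x, C y⟫_ℂ = conj ⟪C x, y⟫_ℂ := by
  rw [inner_conj_symm]
  conv_lhs => rw [← h.inv x]
  exact h.inner _ _

theorem norm (h : IsConj π C) (x : W) : ‖C x‖ = ‖x‖ := by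
  have h1 := h.inner x x
  rw [inner_self_eq_norm_sq_to_K, inner_self_eq_norm_sq_to_K] at h1
  have h2 : ‖C x‖ ^ 2 = ‖x‖ ^ 2 := by exact_mod_cast h1
  exact (sq_eq_sq₀ (norm_nonneg _) (norm_nonneg _)).1 h2

end IsConj

section
variable {Γ : Type} [Group Γ] {W W₀ : Type} [NormedAddCommGroup W] [InnerProductSpace ℂ W]
  [NormedAddCommGroup W₀] [InnerProductSpace ℂ W₀] {π : Γ →* (W ≃ₗᵢ[ℂ] W)}
  {C : W →SL[starRingEnd ℂ] W} {A : Set W} {P : W →L[ℂ] W₀} {J : W₀ →ₗᵢ[ℂ] W}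
  {π₀ : Γ →* (W₀ ≃ₗᵢ[ℂ] W₀)}

/-- the conjugation of `W₀` -/
def cj₀ (P : W →L[ℂ] W₀) (J : W₀ →ₗᵢ[ℂ] W) (C : W →SL[starRingEnd ℂ] W) :
    W₀ →SL[starRingEnd ℂ] W₀ := P.comp (C.comp J.toContinuousLinearMap)

theorem cj₀_apply (P : W →L[ℂ] W₀) (J : W₀ →ₗᵢ[ℂ] W) (C : W →SL[starRingEnd ℂ] W) (x : W₀) :
    cj₀ P J C x = P (C (J x)) := rfl

theorem J_cj₀ [CompleteSpace W₀] (h : H275.Restr π A W₀ P J π₀) (hA : ∀ a ∈ A, C a ∈ A) (x : W₀) :
    J (cj₀ P J C x) = C (J x) := by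
  set M : Submodule ℂ W₀ := Submodule.span ℂ (P '' A) with hM
  have hd : M.topologicalClosure = ⊤ := by
    rw [Submodule.topologicalClosure_eq_top_iff, Submodule.eq_bot_iff]
    intro x hx
    refine h.dense x fun a ha => ?_
    exact (Submodule.mem_orthogonal' _ _).1 hx _ (Submodule.subset_span ⟨a, ha, rfl⟩)
  have hx : x ∈ M.topologicalClosure := by rw [hd]; trivial
  have hcl : IsClosed {x : W₀ | J (cj₀ P J C x) = C (J x)} :=
    isClosed_eq (J.continuous.comp (cj₀ P J C).continuous) (C.continuous.comp J.continuous)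
  have h1 : (M : Set W₀) ⊆ {x : W₀ | J (cj₀ P J C x) = C (J x)} := by
    intro y hy
    have hy' : y ∈ Submodule.span ℂ (P '' A) := hy
    show J (cj₀ P J C y) = C (J y)
    induction hy' using Submodule.span_induction with
    | mem a ha =>
      obtain ⟨b, hb, rfl⟩ := ha
      rw [cj₀_apply, h.JP b hb, h.JP _ (hA b hb)]
    | zero => simp
    | add a b _ _ iha ihb =>
      rw [map_add, map_add, map_add, map_add, iha (by assumption), ihb (by assumption)]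
    | smul c a _ iha =>
      rw [map_smulₛₗ, map_smul, map_smul, map_smulₛₗ, iha (by assumption)]
  exact closure_minimal h1 hcl hx

theorem isConj_cj₀ [CompleteSpace W₀] (h : H275.Restr π A W₀ P J π₀) (hA : ∀ a ∈ A, C a ∈ A)
    (hC : IsConj π C) : IsConj π₀ (cj₀ P J C) where
  inv := fun x => J.injective (by rw [J_cj₀ h hA, J_cj₀ h hA, hC.inv])
  inner := fun x y => by
    rw [← J.inner_map_map, J_cj₀ h hA, J_cj₀ h hA, hC.inner, J.inner_map_map]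
  comm := fun g x => J.injective (by
    rw [J_cj₀ h hA, h.Jπ, hC.comm, h.Jπ, J_cj₀ h hA])

theorem cj₀_P [CompleteSpace W₀] (h : H275.Restr π A W₀ P J π₀) (hA : ∀ a ∈ A, C a ∈ A)
    (hC : IsConj π C) (x : W) : cj₀ P J C (P x) = P (C x) := by
  refine ext_inner_left ℂ fun y => ?_
  rw [(isConj_cj₀ h hA hC).inner_right, h.inner, h.inner, hC.inner_right, J_cj₀ h hA]

/-- the closed span of an invariant set and its conjugate -/
theorem exists_restrJ [CompleteSpace W] (π : Γ →* (W ≃ₗᵢ[ℂ] W)) (A : Set W)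
    (hA : ∀ g, ∀ a ∈ A, π g a ∈ A) (hC : IsConj π C) :
    ∃ (W₀ : Type) (_ : NormedAddCommGroup W₀) (_ : InnerProductSpace ℂ W₀) (_ : CompleteSpace W₀)
      (P : W →L[ℂ] W₀) (J : W₀ →ₗᵢ[ℂ] W) (π₀ : Γ →* (W₀ ≃ₗᵢ[ℂ] W₀)),
      H275.Restr π (A ∪ C '' A) W₀ P J π₀ := by
  refine H275.exists_restr π (A ∪ C '' A) ?_
  rintro g _ (h | ⟨a, ha, rfl⟩)
  · exact Or.inl (hA g _ h)
  · refine Or.inr ⟨π g a, hA g a ha, hC.comm g a⟩

theorem conj_mem (hC : IsConj π C) (A : Set W) : ∀ a ∈ A ∪ C '' A, C a ∈ A ∪ C '' A := by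
  rintro _ (h | ⟨a, ha, rfl⟩)
  · exact Or.inr ⟨_, h, rfl⟩
  · left
    rw [hC.inv]
    exact ha

end

section
variable {n q m : ℕ} {X E : Type} [TopologicalSpace X] [ChartedSpace (Cm n) X] [TopologicalSpace E]
  {Γ : Type} [Group Γ] [MulAction Γ E]
  {W W₀ : Type} [NormedAddCommGroup W] [InnerProductSpace ℂ W] [NormedAddCommGroup W₀]
  [InnerProductSpace ℂ W₀] {p : E → X} {F : E → Cm q} {t : Cm q} {K : Subgroup Γ}
  {π : Γ →* (W ≃ₗᵢ[ℂ] W)} {A : Set W} {P : W →L[ℂ] W₀} {J : W₀ →ₗᵢ[ℂ] W}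
  {π₀ : Γ →* (W₀ ≃ₗᵢ[ℂ] W₀)} {C : W →SL[starRingEnd ℂ] W}

theorem vpotJ_map [CompleteSpace W₀] (hp : IsCoveringMap p) (h : H275.Restr π A W₀ P J π₀)
    {Θ : E → Chart n X → (Cm n →L[ℂ] W)} {u : E → W}
    (hΘ : ∀ y e, At e (p y) → ∀ ξ, J (P (Θ y e ξ)) = Θ y e ξ)
    (hu : VPotJ n p F t C Θ u) : VPotJ n p F t (cj₀ P J C) (H275.mapT P Θ) (fun y => P (u y)) := by
  intro y e G hy he hG hGd
  have hJG : AnalyticAt ℂ (fun z => J (G z)) (e (p y)) :=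
    (J.toContinuousLinearMap.analyticAt _).comp hG
  have hev : ∀ᶠ y' in 𝓝 y, AnalyticAt ℂ G (e (p y')) :=
    (ev_iff hp he (Q := fun z => AnalyticAt ℂ G z)).2 hG.eventually_analyticAt
  obtain ⟨c₀, hc₀⟩ := hu y e (fun z => J (G z)) hy he hJG (by
    filter_upwards [hGd, at_ev hp he, hev] with y' g1 g2 g3 g4 ξ hξ
    have e1 : HasFDerivAt (fun z => J (G z)) (J.toContinuousLinearMap.comp
        (fderiv ℂ G (e (p y')))) (e (p y')) :=
      J.toContinuousLinearMap.hasFDerivAt.comp _ g3.differentiableAt.hasFDerivAt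
    rw [e1.fderiv]
    show J (fderiv ℂ G (e (p y')) ξ) = _
    rw [g1 g4 ξ hξ, H275.mapT_apply, hΘ y' e g2 ξ])
  refine ⟨P c₀, ?_⟩
  filter_upwards [hc₀] with y' g1 g2
  show P (u y') = _
  rw [g1 g2, map_add, map_add, h.PJ, cj₀_apply]

/-- potentials in the former sense from the real form -/
theorem vpot_of [CompleteSpace W] (hp : IsCoveringMap p) (hC : IsConj π C)
    {Θ : E → Chart n X → (Cm n →L[ℂ] W)} {u : E → W}
    (hhol : ∀ y e, F y = t → At e (p y) → ∃ A : Cm n → (Cm n →L[ℂ] W), AnalyticAt ℂ A (e (p y)) ∧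
      ∀ᶠ y' in 𝓝 y, F y' = t → ∀ ξ ∈ VS p F y' e, Θ y' e ξ = A (e (p y')) ξ)
    (hch : ∀ y e e', F y = t → At e (p y) → At e' (p y) → ∀ ξ ∈ VS p F y e,
      Θ y e ξ = Θ y e' (fderiv ℂ (fun z => e' (e.symm z)) (e (p y)) ξ))
    (hprim : ∀ y e, F y = t → At e (p y) → ∃ G : Cm n → W, AnalyticAt ℂ G (e (p y)) ∧
      ∀ᶠ y' in 𝓝 y, F y' = t → ∀ ξ ∈ VS p F y' e, fderiv ℂ G (e (p y')) ξ = Θ y' e ξ)
    (hu : VPotJ n p F t C Θ u) : VPot p F t W Θ u where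
  hol := hhol
  change := hch
  pot := fun y e hy he x => by
    obtain ⟨G, hG, hGd⟩ := hprim y e hy he
    obtain ⟨c₀, hc₀⟩ := hu y e G hy he hG hGd
    have hin : ∀ x₁ : W, AnalyticAt ℂ (fun z => ⟪x₁, G z⟫_ℂ) (e (p y)) := fun x₁ =>
      ((innerSL ℂ x₁).analyticAt _).comp hG
    have hev : ∀ᶠ y' in 𝓝 y, AnalyticAt ℂ G (e (p y')) :=
      (ev_iff hp he (Q := fun z => AnalyticAt ℂ G z)).2 hG.eventually_analyticAt
    refine ⟨fun z => ⟪x, G z⟫_ℂ + ⟪x, c₀⟫_ℂ, fun z => ⟪C x, G z⟫_ℂ,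
      (hin x).add analyticAt_const, hin _, ?_⟩
    filter_upwards [hc₀, hGd, hev] with y' g1 g2 g3 hy'
    constructor
    · rw [g1 hy', inner_add_right, inner_add_right, hC.inner_right]
      ring
    · intro ξ hξ
      have h1 : HasFDerivAt (fun z => ⟪x, G z⟫_ℂ + ⟪x, c₀⟫_ℂ)
          ((innerSL ℂ x).comp (fderiv ℂ G (e (p y')))) (e (p y')) :=
        ((innerSL ℂ x).hasFDerivAt.comp (e (p y'))
          g3.differentiableAt.hasFDerivAt).add_const ⟪x, c₀⟫_ℂ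
      rw [h1.fderiv]
      show ⟪x, fderiv ℂ G (e (p y')) ξ⟫_ℂ = _
      rw [g2 hy' ξ hξ]

/-- the potential can be chosen real -/
theorem vpotJ_real (hC : IsConj π C) {Θ : E → Chart n X → (Cm n →L[ℂ] W)} {u : E → W}
    (hu : VPotJ n p F t C Θ u) :
    VPotJ n p F t C Θ (fun y => (1 / 2 : ℂ) • (u y + C (u y))) := by
  intro y e G hy he hG hGd
  obtain ⟨c₀, hc₀⟩ := hu y e G hy he hG hGd
  refine ⟨(1 / 2 : ℂ) • (c₀ + C c₀), ?_⟩
  filter_upwards [hc₀] with y' g1 g2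
  rw [g1 g2, map_add, map_add, hC.inv]
  module

end

/-! ### the conjugation of the ultraproduct -/

section
variable {H : ℕ → Type} [∀ k, NormedAddCommGroup (H k)] [∀ k, InnerProductSpace ℂ (H k)]
  {U : Ultrafilter ℕ} {Γ : Type} [Group Γ] {ρ : ∀ k, Γ →* (H k ≃ₗᵢ[ℂ] H k)}
  {J : ∀ k, H k →SL[starRingEnd ℂ] H k}

theorem isConj_up (hJ : ∀ k x, ‖J k x‖ ≤ ‖x‖) (hJJ : ∀ k x, J k (J k x) = x)
    (hJi : ∀ k x y, ⟪x, J k y⟫_ℂ = conj ⟪J k x, y⟫_ℂ)
    (hρ : ∀ k g x, J k (ρ k g x) = ρ k g (J k x)) :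
    IsConj (upRep U ρ) (upMap U J (Jbd hJ)) := by
  have hinv : ∀ x, upMap U J (Jbd hJ) (upMap U J (Jbd hJ) x) = x := by
    intro x
    refine dense_mk (fun x => upMap U J (Jbd hJ) (upMap U J (Jbd hJ) x) = x)
      (isClosed_eq ((ContinuousLinearMap.continuous _).comp (ContinuousLinearMap.continuous _))
        continuous_id) (fun x hx => ?_) x
    rw [upMap_mk (Jbd hJ) hx, upMap_mk (Jbd hJ) (bdJ hJ hx)]
    congr 1
    funext k
    exact hJJ k (x k)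
  refine ⟨hinv, fun x y => ?_, fun g x => (rep_upJ hJ ρ (fun k g x => (hρ k g x).symm) g x).symm⟩
  rw [inner_upJ hJ hJi, hinv, inner_conj_symm]

end

end Vale.Agent.P284.H366.J
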