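import Vale.Agent.P284.H366.J.Disp
import Vale.Agent.P284.H366.J.Res

/-!
# P284 (helper366), theorem T3⁺: the displacements of the potentials, modules D1', D3

`dsp F u κ y = u (F y) (κ • y) - u (F y) y`: it does not depend on the potentials, is locally the real
part of an analytic map (`dsp_re`) and is equivariant (`dsp_smul`). `ident_re`: identity theorem.
-/

open scoped Manifold ContDiff Topology InnerProductSpace ComplexConjugate ENNReal Matrix
open Filter Set MeasureTheory Metric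

noncomputable section

set_option linter.unusedSectionVars false

namespace Vale.Agent.P284.H366.J

open Vale.Agent.P272.K Vale.Agent.P284.H894 Vale.Agent.P284.H894.G Vale.Agent.P284.H894.V
  Vale.Agent.P284.H894.W Vale.Agent.P284.H501 Vale.Agent.P284.H501.Core Vale.Agent.P284.H619
  Vale.Agent.P284.H619.Pot
  Vale.Agent.P284.H402.A Vale.Agent.P284.H551 Vale.Agent.P284.H366

/-! ### Real parts of analytic maps -/

section
variable {n : ℕ} {X : Type} [TopologicalSpace X] [ChartedSpace (Cm n) X]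
  {E : Type} [TopologicalSpace E] {p : E → X}
  {W : Type} [NormedAddCommGroup W] [InnerProductSpace ℂ W] {J : W →SL[starRingEnd ℂ] W}

/-- near `y` the map `f` is the real part `Ψ + J Ψ` of an analytic map -/
def ReAt (n : ℕ) {X E W : Type} [TopologicalSpace X] [ChartedSpace (Cm n) X] [TopologicalSpace E]
    [NormedAddCommGroup W] [InnerProductSpace ℂ W] (p : E → X) (J : W →SL[starRingEnd ℂ] W)
    (f : E → W) (y : E) : Prop :=
  ∃ (e : Chart n X) (Ψ : Cm n → W), At e (p y) ∧ AnalyticAt ℂ Ψ (e (p y)) ∧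
    ∀ᶠ y' in 𝓝 y, f y' = Ψ (e (p y')) + J (Ψ (e (p y')))

/-- identity theorem on a ball -/
theorem re_ident [CompleteSpace W] {Ψ : Cm n → W} {z₀ : Cm n} {r : ℝ}
    (hΨ : AnalyticOnNhd ℂ Ψ (ball z₀ r)) {z₁ : Cm n} (hz₁ : z₁ ∈ ball z₀ r)
    (h : ∀ᶠ z in 𝓝 z₁, Ψ z + J (Ψ z) = 0) : ∀ z ∈ ball z₀ r, Ψ z + J (Ψ z) = 0 := by
  have ha : AnalyticOnNhd ℝ (fun z => Ψ z + J (Ψ z)) (ball z₀ r) := by
    intro z hz
    have h1 : AnalyticAt ℝ Ψ z := (hΨ z hz).restrictScalars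
    exact h1.add ((toR J).analyticAt (Ψ z) |>.comp h1)
  have := ha.eqOn_zero_of_preconnected_of_eventuallyEq_zero (convex_ball z₀ r).isPreconnected hz₁ h
  exact fun z hz => this hz

/-- **identity theorem** for real parts of analytic maps on the covering -/
theorem ident_re [CompleteSpace W] (hp : IsCoveringMap p) {A : Set E} (hA : IsPreconnected A)
    {f : E → W} (hf : ∀ y ∈ A, ReAt n p J f y) {y₀ : E} (hy₀ : y₀ ∈ A)
    (h0 : ∀ᶠ y in 𝓝 y₀, f y = 0) : ∀ y ∈ A, ∀ᶠ y' in 𝓝 y, f y' = 0 := by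
  intro y hy
  have := hA.induction₂ (fun a b => (∀ᶠ y' in 𝓝 a, f y' = 0) ↔ ∀ᶠ y' in 𝓝 b, f y' = 0)
    (fun a ha => ?_) (fun a b c _ _ _ h1 h2 => h1.trans h2) (fun a b _ _ h => h.symm) hy₀ hy
  · exact this.1 h0
  obtain ⟨e, Ψ, he, hΨ, hev⟩ := hf a ha
  refine mem_nhdsWithin_of_mem_nhds ?_
  obtain ⟨r, hr, hball⟩ := Metric.eventually_nhds_iff_ball.1 hΨ.eventually_analyticAt
  have hΨr : AnalyticOnNhd ℂ Ψ (ball (e (p a)) r) := fun z hz => hball z hz
  have key : ∀ᶠ b in 𝓝 a, (∀ᶠ y' in 𝓝 b, f y' = 0) ↔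
      ∀ᶠ z in 𝓝 (e (p b)), Ψ z + J (Ψ z) = 0 := by
    filter_upwards [hev.eventually_nhds, at_ev hp he] with b h1 h2
    rw [← ev_iff hp h2 (Q := fun z => Ψ z + J (Ψ z) = 0)]
    constructor
    · intro h3
      filter_upwards [h1, h3] with y' g1 g2
      rw [← g1, g2]
    · intro h3
      filter_upwards [h1, h3] with y' g1 g2
      rw [g1, g2]
  have hka := key.self_of_nhds
  filter_upwards [key, (tendsto_ep hp he).eventually (ball_mem_nhds _ hr)] with b hb hbr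
  rw [hka, hb]
  constructor
  · intro h
    have h1 := re_ident hΨr (mem_ball_self hr) h
    filter_upwards [isOpen_ball.mem_nhds hbr] with z hz using h1 z hz
  · intro h
    have h1 := re_ident hΨr hbr h
    filter_upwards [ball_mem_nhds (e (p a)) hr] with z hz using h1 z hz

end

/-! ### Uniqueness and equivariance of the potentials -/

section
variable {n q : ℕ} {X : Type} [TopologicalSpace X] [ChartedSpace (Cm n) X]
  {E : Type} [TopologicalSpace E] {p : E → X} {F : E → Cm q}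
  {W : Type} [NormedAddCommGroup W] [InnerProductSpace ℂ W] {J : W →SL[starRingEnd ℂ] W}
  {Θ : E → Chart n X → (Cm n →L[ℂ] W)} {T : Set (Cm q)} {u : Cm q → E → W}

/-- two potentials on a connected fibre differ by a constant -/
theorem pot_const {t : Cm q} (hc : IsConnected (F ⁻¹' {t}))
    (hprim : ∀ y, F y = t → ∃ (e : Chart n X) (G : Cm n → W), At e (p y) ∧
      AnalyticAt ℂ G (e (p y)) ∧
      ∀ᶠ y' in 𝓝 y, F y' = t → ∀ ξ ∈ VS p F y' e, fderiv ℂ G (e (p y')) ξ = Θ y' e ξ)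
    {v v' : E → W} (hv : VPotJ n p F t J Θ v) (hv' : VPotJ n p F t J Θ v') :
    ∃ b : W, ∀ y, F y = t → v' y = v y + b := by
  obtain ⟨y₀, hy₀⟩ := hc.nonempty
  refine ⟨v' y₀ - v y₀, ?_⟩
  have key := fib_ind hc.isPreconnected (P := fun y => v' y - v y = v' y₀ - v y₀)
    (fun y₁ hy₁ => ?_) hy₀ rfl
  · intro y hy
    rw [← key y hy]
    abel
  · obtain ⟨e, G, he, hG, hGd⟩ := hprim y₁ hy₁
    obtain ⟨c, hc⟩ := hv y₁ e G hy₁ he hG hGd
    obtain ⟨c', hc'⟩ := hv' y₁ e G hy₁ he hG hGd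
    have h3 : ∀ᶠ y in 𝓝 y₁, F y = t → v' y - v y = c' - c := by
      filter_upwards [hc, hc'] with y g1 g2 g3
      rw [g1 g3, g2 g3]
      abel
    have h4 := h3.self_of_nhds hy₁
    filter_upwards [h3] with y k1 k2
    rw [k1 k2, h4]

theorem PotSys.prim' (hu : PotSys n p F T J Θ u) {t : Cm q} (ht : t ∉ T) :
    ∀ y, F y = t → ∃ (e : Chart n X) (G : Cm n → W), At e (p y) ∧
      AnalyticAt ℂ G (e (p y)) ∧
      ∀ᶠ y' in 𝓝 y, F y' = t → ∀ ξ ∈ VS p F y' e, fderiv ℂ G (e (p y')) ξ = Θ y' e ξ := by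
  intro y hy
  have he : At (chartAt (Cm n) (p y)) (p y) := ⟨chart_mem_atlas _ _, mem_chart_source _ _⟩
  obtain ⟨G, hG⟩ := hu.prim y _ (by rwa [hy]) he
  exact ⟨_, G, he, hG.an, hG.der.mono fun y' h _ => h⟩

variable {Γ : Type} [Group Γ] [MulAction Γ E]

/-- the displacement -/
def dsp (F : E → Cm q) (u : Cm q → E → W) (κ : Γ) (y : E) : W := u (F y) (κ • y) - u (F y) y

/-- the displacements do not depend on the potentials -/
theorem dsp_indep (hu : PotSys n p F T J Θ u) {u' : Cm q → E → W} (hu' : PotSys n p F T J Θ u')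
    {κ : Γ} (hκ : ∀ y, F (κ • y) = F y) {y : E} (hy : F y ∉ T) : dsp F u' κ y = dsp F u κ y := by
  obtain ⟨b, hb⟩ := pot_const (hu.conn _ hy) (hu.prim' hy) (hu.pot _ hy) (hu'.pot _ hy)
  rw [dsp, dsp, hb y rfl, hb (κ • y) (hκ y)]
  abel

/-- translates of potentials -/
theorem vpotJ_smul [CompleteSpace W] (hG : IsGalois Γ p) (hF : HolE n p F) {c : Γ → Cm q}
    (hc : ∀ g y, F (g • y) = F y + c g) {π : Γ →* (W ≃ₗᵢ[ℂ] W)}
    (hJ : ∀ g x, J (π g x) = π g (J x)) {g : Γ} {t : Cm q}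
    (hequi : ∀ y e, F y = t → At e (p y) → ∀ ξ ∈ VS p F y e, Θ (g • y) e ξ = π g (Θ y e ξ))
    {v : E → W} (hv : VPotJ n p F (t + c g) J Θ v) :
    VPotJ n p F t J Θ (fun y => (π g).symm (v (g • y))) := by
  intro y e G hy he hG₀ hGd
  have hpg : ∀ y', p (g • y') = p y' := fun y' => ((hG.orb _ _).2 ⟨g, rfl⟩).symm
  have hten : Tendsto (fun y' => g⁻¹ • y') (𝓝 (g • y)) (𝓝 y) := by
    have := (hG.cont g⁻¹).tendsto (g • y)
    rwa [inv_smul_smul] at this
  have hpgi : ∀ y', p (g⁻¹ • y') = p y' := fun y' => ((hG.orb _ _).2 ⟨g⁻¹, rfl⟩).symm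
  have hcg : ∀ y', F (g⁻¹ • y') + c g = F y' := fun y' => by
    rw [← hc, smul_inv_smul]
  have hA : ∀ x, (((π g).toContinuousLinearEquiv : W ≃L[ℂ] W) : W →L[ℂ] W) x = π g x :=
    fun x => rfl
  have hGg : AnalyticAt ℂ (fun z => π g (G z)) (e (p (g • y))) := by
    rw [hpg]
    exact ((((π g).toContinuousLinearEquiv : W ≃L[ℂ] W) : W →L[ℂ] W).analyticAt _).comp hG₀
  have hdG : ∀ᶠ y' in 𝓝 y, DifferentiableAt ℂ G (e (p y')) :=
    (tendsto_ep hG.cov he).eventually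
      (hG₀.eventually_analyticAt.mono fun z h => h.differentiableAt)
  obtain ⟨c₀, hc₀⟩ := hv (g • y) e (fun z => π g (G z)) (by rw [hc, hy]) (by rw [hpg]; exact he) hGg
    (by
      filter_upwards [hten.eventually hGd, hten.eventually (at_ev hG.cov he),
        hten.eventually hdG] with y' g1 g2 g3 g4 ξ hξ
      have hFy' : F (g⁻¹ • y') = t := by
        have := hcg y'
        rw [g4] at this
        exact add_right_cancel this
      have hvs : ξ ∈ VS p F (g⁻¹ • y') e := by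
        rw [mem_VS_iff hG.cov hF g2]
        have h1 := (mem_VS_iff hG.cov hF (by rwa [hpgi] at g2)).1 hξ
        rw [← h1, ← dFe_smul hG hF hc g g2, smul_inv_smul]
      have h1 := g1 hFy' ξ hvs
      have h2 := hequi _ e hFy' g2 ξ hvs
      rw [smul_inv_smul] at h2
      rw [h2, ← h1]
      rw [hpgi] at g3 h1 ⊢
      have h3 : HasFDerivAt (fun z => π g (G z))
          ((((π g).toContinuousLinearEquiv : W ≃L[ℂ] W) : W →L[ℂ] W).comp
            (fderiv ℂ G (e (p y')))) (e (p y')) :=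
        (((π g).toContinuousLinearEquiv : W ≃L[ℂ] W) : W →L[ℂ] W).hasFDerivAt.comp _
          g3.hasFDerivAt
      rw [h3.fderiv]
      rfl)
  refine ⟨(π g).symm c₀, ?_⟩
  filter_upwards [(hG.cont g).continuousAt.eventually hc₀] with y' h1 h2
  rw [h1 (by rw [hc, h2]), hpg, map_add, map_add, hJ, LinearIsometryEquiv.symm_apply_apply,
    LinearIsometryEquiv.symm_apply_apply]

/-- **equivariance of the potentials** -/
theorem pot_equi [CompleteSpace W] (hG : IsGalois Γ p) (hF : HolE n p F) {c : Γ → Cm q}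
    (hc : ∀ g y, F (g • y) = F y + c g) {π : Γ →* (W ≃ₗᵢ[ℂ] W)}
    (hJ : ∀ g x, J (π g x) = π g (J x)) (hu : PotSys n p F T J Θ u) {g : Γ} {t : Cm q}
    (ht : t ∉ T) (htg : t + c g ∉ T)
    (hequi : ∀ y e, F y = t → At e (p y) → ∀ ξ ∈ VS p F y e, Θ (g • y) e ξ = π g (Θ y e ξ)) :
    ∃ b : W, ∀ y, F y = t → u (t + c g) (g • y) = π g (u t y) + b := by
  obtain ⟨b, hb⟩ := pot_const (hu.conn _ ht) (hu.prim' ht) (hu.pot _ ht)
    (vpotJ_smul hG hF hc hJ hequi (hu.pot _ htg))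
  refine ⟨π g b, fun y hy => ?_⟩
  rw [← map_add, ← hb y hy, LinearIsometryEquiv.apply_symm_apply]

/-- **D3**: equivariance of the displacements -/
theorem dsp_smul [CompleteSpace W] (hG : IsGalois Γ p) (hF : HolE n p F) {c : Γ → Cm q}
    (hc : ∀ g y, F (g • y) = F y + c g) {π : Γ →* (W ≃ₗᵢ[ℂ] W)}
    (hJ : ∀ g x, J (π g x) = π g (J x)) (hu : PotSys n p F T J Θ u) {g κ : Γ} {y : E}
    (ht : F y ∉ T) (htg : F y + c g ∉ T) (hκ : F ((g⁻¹ * κ * g) • y) = F y)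
    (hequi : ∀ y' e, F y' = F y → At e (p y') → ∀ ξ ∈ VS p F y' e,
      Θ (g • y') e ξ = π g (Θ y' e ξ)) :
    dsp F u κ (g • y) = π g (dsp F u (g⁻¹ * κ * g) y) := by
  obtain ⟨b, hb⟩ := pot_equi hG hF hc hJ hu ht htg hequi
  have h1 : κ • g • y = g • (g⁻¹ * κ * g) • y := by
    rw [smul_smul, smul_smul]
    congr 1
    group
  rw [dsp, dsp, hc, h1, hb _ hκ, hb y rfl, map_sub]
  abel

/-- **D1'**: the displacements are real parts of analytic maps -/
theorem dsp_re [CompleteSpace W] [IsManifold 𝓘(ℂ, Cm n) ω X] (hG : IsGalois Γ p)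
    (hF : HolE n p F) (hu : PotSys n p F T J Θ u) {κ : Γ} (hκ : ∀ y, F (κ • y) = F y) {y₀ : E}
    (hy₀ : F y₀ ∉ T) {e : Chart n X} (he : At e (p y₀)) :
    ∃ Ψ : Cm n → W, AnalyticAt ℂ Ψ (e (p y₀)) ∧
      ∀ᶠ y in 𝓝 y₀, dsp F u κ y = Ψ (e (p y)) + J (Ψ (e (p y))) := by
  have hpk : ∀ y', p (κ • y') = p y' := fun y' => ((hG.orb _ _).2 ⟨κ, rfl⟩).symm
  obtain ⟨G, hGp⟩ := hu.prim y₀ e hy₀ he
  obtain ⟨G', hGp'⟩ := hu.prim (κ • y₀) e (by rwa [hκ]) (by rwa [hpk])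
  obtain ⟨Q, hQ, hD⟩ := disp_rel hG.cov hF hu hy₀ rfl (hκ y₀) hGp hGp'
  obtain ⟨f, hf, hfa⟩ := hF y₀ e he
  have hfe : f (e (p y₀)) = F y₀ := hf.self_of_nhds.symm
  have hG'an : AnalyticAt ℂ G' (e (p y₀)) := by
    have := hGp'.an
    rwa [hpk] at this
  refine ⟨fun z => G' z - G z + Q (f z), ?_, ?_⟩
  · refine (hG'an.sub hGp.an).add (AnalyticAt.comp (g := Q) ?_ hfa)
    rwa [hfe]
  · have h1 : Tendsto (fun y => (y, κ • y)) (𝓝 y₀) (𝓝 y₀ ×ˢ 𝓝 (κ • y₀)) :=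
      tendsto_id.prodMk (hG.cont κ).continuousAt
    filter_upwards [h1.eventually hD, hf] with y g1 g2
    have g3 : u (F y) (κ • y) - u (F y) y = RJ p J e G' (κ • y) - RJ p J e G y +
        (Q (F y) + J (Q (F y))) := g1 (hκ y).symm
    rw [dsp, g3, RJ, RJ, hpk, g2, map_add, map_sub]
    abel

theorem dsp_reAt [CompleteSpace W] [IsManifold 𝓘(ℂ, Cm n) ω X] (hG : IsGalois Γ p)
    (hF : HolE n p F) (hu : PotSys n p F T J Θ u) {κ : Γ} (hκ : ∀ y, F (κ • y) = F y) {y₀ : E}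
    (hy₀ : F y₀ ∉ T) : ReAt n p J (dsp F u κ) y₀ := by
  have he : At (chartAt (Cm n) (p y₀)) (p y₀) := ⟨chart_mem_atlas _ _, mem_chart_source _ _⟩
  obtain ⟨Ψ, h1, h2⟩ := dsp_re hG hF hu hκ hy₀ he
  exact ⟨_, Ψ, he, h1, h2⟩

end

end Vale.Agent.P284.H366.J
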