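import Vale.Agent.P284.H378.Slide

/-!
# P284 (helper366), theorem T3⁺: potentials along the leaves, local part

Along the leaves (fibres of `β`) the potential `F0` of a leaf chart changes by a function of `tq`.
-/

open scoped Manifold ContDiff Topology InnerProductSpace ComplexConjugate
open Filter Set Metric

noncomputable section

set_option linter.unusedSectionVars false

namespace Vale.Agent.P284.H366.J

open Vale.Agent.P272.K Vale.Agent.P284.H625 Vale.Agent.P284.H378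

variable {q r k s : ℕ} {W : Type} [NormedAddCommGroup W] [NormedSpace ℂ W] [CompleteSpace W]

/-- a function with vanishing vertical derivative is constant on the plaques of a ball -/
theorem plaque_const {D : Cm (q + r) → W} {x₀ : Cm (q + r)} {R : ℝ}
    (hD : ∀ x ∈ ball x₀ R, DifferentiableAt ℂ D x)
    (h : ∀ x ∈ ball x₀ R, ∀ ζ : Cm (q + r), tq ζ = 0 → fderiv ℂ D x ζ = 0)
    {x x' : Cm (q + r)} (hx : x ∈ ball x₀ R) (hx' : x' ∈ ball x₀ R) (ht : tq x = tq x') :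
    D x' = D x := by
  have hseg : ∀ s ∈ Icc (0 : ℝ) 1, x + s • (x' - x) ∈ ball x₀ R := by
    intro s hs
    have h1 := (convex_ball x₀ R) hx hx' (sub_nonneg.2 hs.2) hs.1 (by ring)
    have h2 : (1 - s) • x + s • x' = x + s • (x' - x) := by module
    rwa [h2] at h1
  have htq : tq (x' - x) = 0 := by
    funext j
    have := congrFun ht j
    show x' _ - x _ = 0
    exact sub_eq_zero.2 this.symm
  have hder : ∀ s ∈ Icc (0 : ℝ) 1, HasDerivAt (fun s : ℝ => D (x + s • (x' - x))) 0 s := by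
    intro s hs
    have e1 : HasDerivAt (fun s : ℝ => x + s • (x' - x)) (x' - x) s := by
      have := ((hasDerivAt_id s).smul_const (x' - x)).const_add x
      simpa using this
    have e2 := ((hD _ (hseg s hs)).hasFDerivAt.restrictScalars ℝ).comp_hasDerivAt s e1
    have e3 : (fderiv ℂ D (x + s • (x' - x))).restrictScalars ℝ (x' - x) = 0 :=
      h _ (hseg s hs) _ htq
    rw [e3] at e2
    exact e2
  have hc := constant_of_has_deriv_right_zero (f := fun s : ℝ => D (x + s • (x' - x))) (a := 0)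
    (b := 1) (fun s hs => (hder s hs).continuousAt.continuousWithinAt)
    (fun s hs => (hder s ⟨hs.1, hs.2.le⟩).hasDerivWithinAt) 1 ⟨zero_le_one, le_rfl⟩
  simp only [one_smul, zero_smul, add_zero] at hc
  rw [← hc]
  congr 1
  abel

/-- **leaf lemma**: `F0` changes along the leaves by a function of `tq` -/
theorem leaf_F0 (hdim : q + r = s + k) {N : Cm k →L[ℂ] Cm q} {P : Cm q →L[ℂ] Cm k}
    (hP : ∀ x, P (N x) = x) {x₀ : Cm (q + r)} {β : Cm (q + r) → Cm s} {τ : Cm s → Cm q}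
    (hβ : AnalyticAt ℂ β x₀) (htr : ∀ ζ : Cm (q + r), tq ζ = 0 → fderiv ℂ β x₀ ζ = 0 → ζ = 0)
    (hτ : AnalyticAt ℂ τ (β x₀))
    (hleaf : ∀ᶠ x in 𝓝 x₀, tq x - τ (β x) ∈ LinearMap.range (N : Cm k →ₗ[ℂ] Cm q))
    {F0 : Cm (q + r) → W} (hF0 : AnalyticAt ℂ F0 x₀)
    (hsheet : ∃ ρ > 0, ∀ x₁ ∈ ball x₀ ρ, ∀ ψ : Cm (q + r) → Cm (q + r),
      AnalyticAt ℂ ψ x₁ → ψ x₁ ∈ ball x₀ ρ →
      (∃ c : Cm q, ∀ᶠ x in 𝓝 x₁, tq (ψ x) = tq x + c) →
      (∀ᶠ x in 𝓝 x₁, β (ψ x) = β x) →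
      ∀ᶠ x in 𝓝 x₁, ∀ ζ : Cm (q + r), tq ζ = 0 →
        fderiv ℂ (fun x => F0 (ψ x)) x ζ = fderiv ℂ F0 x ζ) :
    ∃ ρ > 0, ∀ x ∈ ball x₀ ρ, ∀ x₁ ∈ ball x₀ ρ, ∀ x' ∈ ball x₀ ρ, ∀ x₁' ∈ ball x₀ ρ,
      β x₁ = β x → β x₁' = β x' → tq x' = tq x → tq x₁' = tq x₁ →
      F0 x₁' - F0 x' = F0 x₁ - F0 x := by
  obtain ⟨I, hI, hI1, hI2⟩ := exists_coord hdim hP hβ htr hτ hleaf
  obtain ⟨ρs, hρs, hsheet⟩ := hsheet
  have hNP : ∀ y ∈ LinearMap.range (N : Cm k →ₗ[ℂ] Cm q), N (P y) = y := by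
    rintro _ ⟨x, rfl⟩
    simp only [ContinuousLinearMap.coe_coe, hP]
  set z₀ : Cm s × Cm k := (β x₀, P (tq x₀)) with hz₀
  have hI0 : I z₀ = x₀ := hI1.self_of_nhds
  have hIc : Tendsto I (𝓝 z₀) (𝓝 x₀) := by
    have := hI.continuousAt.tendsto
    rwa [hI0] at this
  -- the good region for `z`
  have hgz : ∀ᶠ z in 𝓝 z₀, AnalyticAt ℂ I z ∧ (β (I z) = z.1 ∧ P (tq (I z)) = z.2) ∧
      I z ∈ ball x₀ ρs ∧ AnalyticAt ℂ F0 (I z) ∧
      tq (I z) - τ (β (I z)) ∈ LinearMap.range (N : Cm k →ₗ[ℂ] Cm q) := by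
    filter_upwards [hI.eventually_analyticAt, hI2, hIc.eventually (ball_mem_nhds x₀ hρs),
      hIc.eventually hF0.eventually_analyticAt, hIc.eventually hleaf] with z g1 g2 g3 g4 g5
    exact ⟨g1, g2, g3, g4, g5⟩
  -- the map `(x, s) ↦ (β x, P tq x + s)`
  have hcz : Tendsto (fun y : Cm (q + r) × Cm k => (β y.1, P (tq y.1) + y.2))
      (𝓝 x₀ ×ˢ 𝓝 0) (𝓝 z₀) := by
    have h1 : Tendsto (fun y : Cm (q + r) × Cm k => β y.1) (𝓝 x₀ ×ˢ 𝓝 0) (𝓝 (β x₀)) :=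
      hβ.continuousAt.tendsto.comp tendsto_fst
    have h2 : Tendsto (fun y : Cm (q + r) × Cm k => P (tq y.1) + y.2) (𝓝 x₀ ×ˢ 𝓝 0)
        (𝓝 (P (tq x₀) + 0)) := by
      refine Tendsto.add ?_ tendsto_snd
      exact ((P ∘L tqc q r).continuous.tendsto x₀).comp tendsto_fst
    rw [add_zero] at h2
    exact h1.prodMk_nhds h2
  have hgx : ∀ᶠ x in 𝓝 x₀, AnalyticAt ℂ β x ∧ AnalyticAt ℂ F0 x ∧ x ∈ ball x₀ ρs ∧
      tq x - τ (β x) ∈ LinearMap.range (N : Cm k →ₗ[ℂ] Cm q) ∧ I (β x, P (tq x)) = x := by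
    filter_upwards [hβ.eventually_analyticAt, hF0.eventually_analyticAt, ball_mem_nhds x₀ hρs,
      hleaf, hI1] with x g1 g2 g3 g4 g5
    exact ⟨g1, g2, g3, g4, g5⟩
  obtain ⟨A, hA, B, hB, hAB⟩ := Filter.mem_prod_iff.1 (hcz.eventually hgz)
  obtain ⟨R₁, hR₁, hballA⟩ := Metric.mem_nhds_iff.1 hA
  obtain ⟨R₂, hR₂, hballB⟩ := Metric.mem_nhds_iff.1 hB
  obtain ⟨R₃, hR₃, hballC⟩ := Metric.eventually_nhds_iff_ball.1 hgx
  set R := min R₁ R₃ with hR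
  have hRpos : 0 < R := lt_min hR₁ hR₃
  have hgood : ∀ x ∈ ball x₀ R, ∀ v ∈ ball (0 : Cm k) R₂,
      AnalyticAt ℂ I (β x, P (tq x) + v) ∧ (β (I (β x, P (tq x) + v)) = β x ∧
        P (tq (I (β x, P (tq x) + v))) = P (tq x) + v) ∧ I (β x, P (tq x) + v) ∈ ball x₀ ρs ∧
        AnalyticAt ℂ F0 (I (β x, P (tq x) + v)) ∧
      tq (I (β x, P (tq x) + v)) - τ (β (I (β x, P (tq x) + v))) ∈
        LinearMap.range (N : Cm k →ₗ[ℂ] Cm q) := by
    intro x hx v hv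
    exact hAB (show (x, v) ∈ A ×ˢ B from
      ⟨hballA (ball_subset_ball (min_le_left _ _) hx), hballB hv⟩)
  have hgood' : ∀ x ∈ ball x₀ R, AnalyticAt ℂ β x ∧ AnalyticAt ℂ F0 x ∧ x ∈ ball x₀ ρs ∧
      tq x - τ (β x) ∈ LinearMap.range (N : Cm k →ₗ[ℂ] Cm q) ∧ I (β x, P (tq x)) = x :=
    fun x hx => hballC x (ball_subset_ball (min_le_right _ _) hx)
  -- the leaf translation
  have htqψ : ∀ x ∈ ball x₀ R, ∀ v ∈ ball (0 : Cm k) R₂,
      tq (I (β x, P (tq x) + v)) = tq x + N v := by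
    intro x hx v hv
    obtain ⟨-, ⟨g2, g3⟩, -, -, g5⟩ := hgood x hx v hv
    obtain ⟨-, -, -, g6, -⟩ := hgood' x hx
    rw [g2] at g5
    have h1 : tq (I (β x, P (tq x) + v)) - tq x ∈ LinearMap.range (N : Cm k →ₗ[ℂ] Cm q) := by
      have := Submodule.sub_mem _ g5 g6
      rwa [sub_sub_sub_cancel_right] at this
    have h2 := hNP _ h1
    rw [map_sub, g3, add_sub_cancel_left] at h2
    rw [h2]
    abel
  have hconst : ∀ v ∈ ball (0 : Cm k) R₂, ∀ x ∈ ball x₀ R, ∀ x' ∈ ball x₀ R, tq x = tq x' →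
      F0 (I (β x', P (tq x') + v)) - F0 x' = F0 (I (β x, P (tq x) + v)) - F0 x := by
    intro v hv x hx x' hx' ht
    have han : ∀ x ∈ ball x₀ R, AnalyticAt ℂ (fun x => I (β x, P (tq x) + v)) x := by
      intro x hx
      obtain ⟨g1, -, -, -, -⟩ := hgood x hx v hv
      obtain ⟨g2, -⟩ := hgood' x hx
      refine AnalyticAt.comp (g := I) (f := fun x => (β x, P (tq x) + v)) g1 ?_
      exact g2.prod (((P ∘L tqc q r).analyticAt x).add analyticAt_const)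
    have hanF : ∀ x ∈ ball x₀ R, AnalyticAt ℂ (fun x => F0 (I (β x, P (tq x) + v))) x :=
      fun x hx => AnalyticAt.comp (g := F0) (hgood x hx v hv).2.2.2.1 (han x hx)
    refine plaque_const (D := fun x => F0 (I (β x, P (tq x) + v)) - F0 x) (x₀ := x₀) (R := R)
      (fun x hx => ((hanF x hx).sub (hgood' x hx).2.1).differentiableAt) ?_ hx hx' ht
    intro x₁ hx₁ ζ hζ
    obtain ⟨g1, ⟨g2, g3⟩, g4, g5, -⟩ := hgood x₁ hx₁ v hv
    have h1 := hsheet x₁ (hgood' x₁ hx₁).2.2.1 (fun x => I (β x, P (tq x) + v)) (han x₁ hx₁) g4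
      ⟨N v, by
        filter_upwards [isOpen_ball.mem_nhds hx₁] with x hx using htqψ x hx v hv⟩
      (by
        filter_upwards [isOpen_ball.mem_nhds hx₁] with x hx using (hgood x hx v hv).2.1.1)
    have h2 := h1.self_of_nhds ζ hζ
    have h3 : HasFDerivAt (fun x => F0 (I (β x, P (tq x) + v)) - F0 x)
        (fderiv ℂ (fun x => F0 (I (β x, P (tq x) + v))) x₁ - fderiv ℂ F0 x₁) x₁ :=
      (hanF x₁ hx₁).differentiableAt.hasFDerivAt.sub
        (hgood' x₁ hx₁).2.1.differentiableAt.hasFDerivAt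
    rw [h3.fderiv, sub_apply, h2, sub_self]
  -- the radius
  have hsmall : ∀ᶠ y : Cm (q + r) × Cm (q + r) in 𝓝 (x₀, x₀),
      P (tq y.2) - P (tq y.1) ∈ ball (0 : Cm k) R₂ := by
    have h1 : Continuous fun y : Cm (q + r) × Cm (q + r) => P (tq y.2) - P (tq y.1) :=
      ((P ∘L tqc q r).continuous.comp continuous_snd).sub
        ((P ∘L tqc q r).continuous.comp continuous_fst)
    have h2 : P (tq x₀) - P (tq x₀) ∈ ball (0 : Cm k) R₂ := by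
      rw [sub_self]
      exact mem_ball_self hR₂
    exact h1.continuousAt.eventually (p := fun v => v ∈ ball (0 : Cm k) R₂)
      (isOpen_ball.mem_nhds h2)
  obtain ⟨R₄, hR₄, hball4⟩ := Metric.eventually_nhds_iff_ball.1 hsmall
  refine ⟨min R R₄, lt_min hRpos hR₄, fun x hx x₁ hx₁ x' hx' x₁' hx₁' h1 h2 h3 h4 => ?_⟩
  have hR' : ball x₀ (min R R₄) ⊆ ball x₀ R := ball_subset_ball (min_le_left _ _)
  have hR4 : ball x₀ (min R R₄) ⊆ ball x₀ R₄ := ball_subset_ball (min_le_right _ _)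
  set v := P (tq x₁) - P (tq x) with hv
  have hvm : v ∈ ball (0 : Cm k) R₂ := hball4 (x, x₁) (by
    rw [← ball_prod_same]
    exact ⟨hR4 hx, hR4 hx₁⟩)
  have e1 : I (β x, P (tq x) + v) = x₁ := by
    have : (β x, P (tq x) + v) = (β x₁, P (tq x₁)) := by
      rw [h1, hv]
      simp
    rw [this]
    exact (hgood' x₁ (hR' hx₁)).2.2.2.2
  have e2 : I (β x', P (tq x') + v) = x₁' := by
    have : (β x', P (tq x') + v) = (β x₁', P (tq x₁')) := by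
      rw [h2, hv, h3, h4]
      simp
    rw [this]
    exact (hgood' x₁' (hR' hx₁')).2.2.2.2
  have := hconst v hvm x (hR' hx) x' (hR' hx') h3.symm
  rwa [e1, e2] at this

/-- leaf translations exist -/
theorem leaf_move (hdim : q + r = s + k) {N : Cm k →L[ℂ] Cm q} {P : Cm q →L[ℂ] Cm k}
    (hP : ∀ x, P (N x) = x) {x₀ : Cm (q + r)} {β : Cm (q + r) → Cm s} {τ : Cm s → Cm q}
    (hβ : AnalyticAt ℂ β x₀) (htr : ∀ ζ : Cm (q + r), tq ζ = 0 → fderiv ℂ β x₀ ζ = 0 → ζ = 0)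
    (hτ : AnalyticAt ℂ τ (β x₀))
    (hleaf : ∀ᶠ x in 𝓝 x₀, tq x - τ (β x) ∈ LinearMap.range (N : Cm k →ₗ[ℂ] Cm q))
    {O : Set (Cm (q + r))} (hO : O ∈ 𝓝 x₀) :
    ∃ O' ∈ 𝓝 x₀, ∃ ε > 0, ∀ x ∈ O', ∀ σ ∈ LinearMap.range (N : Cm k →ₗ[ℂ] Cm q), ‖σ‖ < ε →
      ∃ x₁ ∈ O, tq x₁ = tq x + σ ∧ β x₁ = β x := by
  obtain ⟨I, hI, hI1, hI2⟩ := exists_coord hdim hP hβ htr hτ hleaf
  have hNP : ∀ y ∈ LinearMap.range (N : Cm k →ₗ[ℂ] Cm q), N (P y) = y := by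
    rintro _ ⟨x, rfl⟩
    simp only [ContinuousLinearMap.coe_coe, hP]
  set z₀ : Cm s × Cm k := (β x₀, P (tq x₀)) with hz₀
  have hI0 : I z₀ = x₀ := hI1.self_of_nhds
  have hIc : Tendsto I (𝓝 z₀) (𝓝 x₀) := by
    have := hI.continuousAt.tendsto
    rwa [hI0] at this
  have hgz : ∀ᶠ z in 𝓝 z₀, (β (I z) = z.1 ∧ P (tq (I z)) = z.2) ∧ I z ∈ O ∧
      tq (I z) - τ (β (I z)) ∈ LinearMap.range (N : Cm k →ₗ[ℂ] Cm q) := by
    filter_upwards [hI2, hIc.eventually hO, hIc.eventually hleaf] with z g1 g2 g3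
    exact ⟨g1, g2, g3⟩
  have hcz : Tendsto (fun y : Cm (q + r) × Cm q => (β y.1, P (tq y.1) + P y.2))
      (𝓝 x₀ ×ˢ 𝓝 0) (𝓝 z₀) := by
    have h1 : Tendsto (fun y : Cm (q + r) × Cm q => β y.1) (𝓝 x₀ ×ˢ 𝓝 0) (𝓝 (β x₀)) :=
      hβ.continuousAt.tendsto.comp tendsto_fst
    have h2 : Tendsto (fun y : Cm (q + r) × Cm q => P (tq y.1) + P y.2) (𝓝 x₀ ×ˢ 𝓝 0)
        (𝓝 (P (tq x₀) + P 0)) := by
      refine Tendsto.add ?_ ((P.continuous.tendsto 0).comp tendsto_snd)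
      exact ((P ∘L tqc q r).continuous.tendsto x₀).comp tendsto_fst
    rw [map_zero, add_zero] at h2
    exact h1.prodMk_nhds h2
  obtain ⟨A, hA, B, hB, hAB⟩ := Filter.mem_prod_iff.1 (hcz.eventually hgz)
  obtain ⟨ε, hε, hball⟩ := Metric.mem_nhds_iff.1 hB
  refine ⟨A ∩ {x | tq x - τ (β x) ∈ LinearMap.range (N : Cm k →ₗ[ℂ] Cm q)},
    inter_mem hA hleaf, ε, hε, fun x hx σ hσ hσε => ?_⟩
  obtain ⟨⟨g1, g2⟩, g3, g4⟩ := hAB (show (x, σ) ∈ A ×ˢ B from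
    ⟨hx.1, hball (by rwa [mem_ball_zero_iff])⟩)
  refine ⟨_, g3, ?_, g1⟩
  simp only at g1 g2 g4
  rw [g1] at g4
  have h1 : tq (I (β x, P (tq x) + P σ)) - tq x ∈ LinearMap.range (N : Cm k →ₗ[ℂ] Cm q) := by
    have := Submodule.sub_mem _ g4 hx.2
    rwa [sub_sub_sub_cancel_right] at this
  have h2 := hNP _ h1
  rw [map_sub, g2, add_sub_cancel_left, hNP σ hσ] at h2
  show tq (I (β x, P (tq x) + P σ)) = tq x + σ
  nth_rewrite 2 [h2]
  abel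

end Vale.Agent.P284.H366.J
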